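import Mathlib

/-! # Colouring of graphs whose vertices have boundedly many neighbours of larger rank -/

namespace Vale.Agent.P208

open Classical in
theorem exists_finite_coloring {A : Type*} (conf : A → A → Prop)
    (hsymm : ∀ a b, conf a b → conf b a) (hirr : ∀ a, ¬ conf a a) (rk : A → ℤ) (M : ℕ)
    (hM : ∀ a, ∃ F : Finset A, F.card ≤ M ∧ ∀ b, conf a b → rk a ≤ rk b → b ∈ F) :
    ∀ n : ℕ, ∀ S : Finset A, S.card = n →
      ∃ χ : A → Fin (M + 1), ∀ a ∈ S, ∀ b ∈ S, conf a b → χ a ≠ χ b := by
  intro n
  induction n with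
  | zero =>
    intro S hS
    have : S = ∅ := Finset.card_eq_zero.mp hS
    subst this
    exact ⟨fun _ => 0, by simp⟩
  | succ n ih =>
    intro S hS
    have hne : S.Nonempty := by
      rw [← Finset.card_pos]; omega
    obtain ⟨α, hαS, hmin⟩ := Finset.exists_min_image S rk hne
    have hcard : (S.erase α).card = n := by
      rw [Finset.card_erase_of_mem hαS]; omega
    obtain ⟨χ', hχ'⟩ := ih (S.erase α) hcard
    obtain ⟨F, hF, hFmem⟩ := hM α
    have hfree : ∃ c : Fin (M + 1), c ∉ F.image χ' := by
      by_contra hcon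
      push Not at hcon
      have h1 : (Finset.univ : Finset (Fin (M + 1))) ⊆ F.image χ' := fun c _ => hcon c
      have h2 := Finset.card_le_card h1
      have h3 := Finset.card_image_le (s := F) (f := χ')
      simp only [Finset.card_univ, Fintype.card_fin] at h2
      omega
    obtain ⟨c, hc⟩ := hfree
    refine ⟨Function.update χ' α c, ?_⟩
    have key : ∀ b ∈ S, conf α b → Function.update χ' α c b ≠ c := by
      intro b hb hab
      have hne' : b ≠ α := by
        rintro rfl
        exact hirr _ hab
      rw [Function.update_of_ne hne']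
      intro heq
      apply hc
      rw [← heq]
      exact Finset.mem_image_of_mem _ (hFmem b hab (hmin b hb))
    intro a ha b hb hab
    by_cases haα : a = α
    · subst haα
      rw [Function.update_self]
      exact (key b hb hab).symm
    · by_cases hbα : b = α
      · subst hbα
        rw [Function.update_self]
        exact key a ha (hsymm _ _ hab)
      · rw [Function.update_of_ne haα, Function.update_of_ne hbα]
        exact hχ' a (Finset.mem_erase.mpr ⟨haα, ha⟩) b (Finset.mem_erase.mpr ⟨hbα, hb⟩) hab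

theorem exists_coloring {A : Type*} (conf : A → A → Prop)
    (hsymm : ∀ a b, conf a b → conf b a) (hirr : ∀ a, ¬ conf a a) (rk : A → ℤ) (M : ℕ)
    (hM : ∀ a, ∃ F : Finset A, F.card ≤ M ∧ ∀ b, conf a b → rk a ≤ rk b → b ∈ F) :
    ∃ χ : A → Fin (M + 1), ∀ a b, conf a b → χ a ≠ χ b := by
  classical
  let G : SimpleGraph A := { Adj := conf, symm := ⟨hsymm⟩, loopless := ⟨hirr⟩ }
  have h : ∀ G' : G.Subgraph, G'.verts.Finite →
      Nonempty (G'.coe →g (⊤ : SimpleGraph (Fin (M + 1)))) := by
    intro G' hfin
    obtain ⟨χ, hχ⟩ := exists_finite_coloring conf hsymm hirr rk M hM hfin.toFinset.card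
      hfin.toFinset rfl
    refine ⟨⟨fun v => χ v.1, ?_⟩⟩
    rintro ⟨a, ha⟩ ⟨b, hb⟩ hab
    have hadj : G'.Adj a b := hab
    have : conf a b := hadj.adj_sub
    exact hχ a (hfin.mem_toFinset.mpr ha) b (hfin.mem_toFinset.mpr hb) this
  obtain ⟨φ⟩ := SimpleGraph.nonempty_hom_of_forall_finite_subgraph_hom
    (G := G) (F := (⊤ : SimpleGraph (Fin (M + 1)))) (fun G' hfin => (h G' hfin).some)
  refine ⟨fun a => φ a, fun a b hab => ?_⟩
  have : G.Adj a b := hab
  exact φ.map_rel this

end Vale.Agent.P208
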