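import Mathlib

/-! # Doubling metric spaces and bi-Lipschitz embeddings -/

namespace Vale.Agent.P208

/-- `X` is doubling with constant at most `N`: every ball of `X` can be covered by at most `N`
balls of half its radius with centers in `X`. -/
def DoublingWith (N : ℕ) (X : Type*) [MetricSpace X] : Prop :=
  ∀ (x : X) (r : ℝ), 0 < r →
    ∃ S : Finset X, S.card ≤ N ∧ Metric.ball x r ⊆ ⋃ s ∈ S, Metric.ball s (r / 2)

/-- `f` is a bi-Lipschitz embedding with distortion at most `D` (and some scale `a > 0`). -/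
def BiLipschitzWith (D : ℝ) {X Y : Type*} [MetricSpace X] [MetricSpace Y] (f : X → Y) : Prop :=
  ∃ a : ℝ, 0 < a ∧ ∀ x y : X,
    a * dist x y ≤ dist (f x) (f y) ∧ dist (f x) (f y) ≤ D * a * dist x y

/-- `X` admits a bi-Lipschitz embedding into Euclidean `ℝ^k` with distortion at most `D`. -/
def EmbedsWith (k : ℕ) (D : ℝ) (X : Type*) [MetricSpace X] : Prop :=
  ∃ f : X → EuclideanSpace ℝ (Fin k), BiLipschitzWith D f

/-- real separable Hilbert space `ℓ²` -/
abbrev Ell2 : Type := lp (fun _ : ℕ => ℝ) 2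

/-- the points `x` and `y` differ in at most `m` coordinates -/
def DifferAtMost (m : ℕ) {ι : Type*} {E : ι → Type*} (x y : ∀ i, E i) : Prop :=
  {i | x i ≠ y i}.encard ≤ m

/-- `f` is affine on every segment contained in `X`. -/
def AffineOnSegments {H F : Type*} [NormedAddCommGroup H] [NormedSpace ℝ H]
    [NormedAddCommGroup F] [NormedSpace ℝ F] (X : Set H) (f : X → F) : Prop :=
  ∀ x y : X, segment ℝ (x : H) (y : H) ⊆ X → ∀ (z : X) (t : ℝ), 0 ≤ t → t ≤ 1 →
    (z : H) = (1 - t) • (x : H) + t • (y : H) → f z = (1 - t) • f x + t • f y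

/-- Doubling subsets of `ℓ²` whose points pairwise differ in at most `m` coordinates embed in
some `ℝ^k`, with `k` and the distortion depending only on the doubling constant and `m`. -/
def SparseSetsEmbed : Prop :=
  ∀ N m : ℕ, ∃ (k : ℕ) (D : ℝ), ∀ X : Set Ell2, DoublingWith N X →
    (∀ x ∈ X, ∀ y ∈ X, DifferAtMost m (x : ∀ _ : ℕ, ℝ) y) → EmbedsWith k D X

/-- Doubling metric spaces with a bi-Lipschitz map to an `ℓ²`-sum whose values pairwise differ in
at most `m` components, all component sets being embeddable in `ℝ^q`, embed in some `ℝ^k`. -/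
def AssemblyPrinciple : Prop :=
  ∀ (N m q : ℕ) (D₀ D₁ : ℝ), ∃ (k : ℕ) (D : ℝ), ∀ (Y : Type) [MetricSpace Y],
    DoublingWith N Y → ∀ (ι : Type) (E : ι → Type) [∀ i, NormedAddCommGroup (E i)]
      (φ : Y → lp E 2), BiLipschitzWith D₁ φ →
      (∀ x y, DifferAtMost m (φ x : ∀ i, E i) (φ y)) →
      (∀ i, EmbedsWith q D₀ (Set.range fun y => φ y i)) → EmbedsWith k D Y

/-- Some doubling subset of `ℓ²`, any two points of which differ in at most three coordinates,
embeds in some `ℝ^k`, but never by a map which is affine on all segments of the set. -/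
def SegmentsMustBend : Prop :=
  ∃ X : Set Ell2, (∃ N, DoublingWith N X) ∧
    (∀ x ∈ X, ∀ y ∈ X, DifferAtMost 3 (x : ∀ _ : ℕ, ℝ) y) ∧ (∃ k D, EmbedsWith k D X) ∧
      ∀ (k : ℕ) (D : ℝ) (f : X → EuclideanSpace ℝ (Fin k)),
        BiLipschitzWith D f → ¬ AffineOnSegments X f

end Vale.Agent.P208
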