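import Mathlib
import Vale.Agent.Lib.P208.Defs

/-! # Nets and packing bounds in doubling spaces -/

namespace Vale.Agent.P208

variable {X : Type*} [MetricSpace X]

open Classical in
theorem cover_iter {N : ℕ} (hX : DoublingWith N X) (k : ℕ) :
    ∀ (x : X) (r : ℝ), 0 < r →
      ∃ S : Finset X, S.card ≤ N ^ k ∧ Metric.ball x r ⊆ ⋃ s ∈ S, Metric.ball s (r / 2 ^ k) := by
  induction k with
  | zero =>
    intro x r hr
    refine ⟨{x}, by simp, ?_⟩
    intro y hy
    simpa using hy
  | succ k ih =>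
    intro x r hr
    obtain ⟨S, hS, hcov⟩ := ih x r hr
    have hr' : 0 < r / 2 ^ k := by positivity
    choose T hT hTcov using fun s : X => hX s (r / 2 ^ k) hr'
    refine ⟨S.biUnion T, ?_, ?_⟩
    · calc (S.biUnion T).card ≤ S.card * N := Finset.card_biUnion_le_card_mul _ _ _ (fun s _ => hT s)
        _ ≤ N ^ k * N := Nat.mul_le_mul_right _ hS
        _ = N ^ (k + 1) := by ring
    · intro y hy
      have h1 := hcov hy
      simp only [Set.mem_iUnion] at h1
      obtain ⟨s, hs, hys⟩ := h1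
      have h2 := hTcov s hys
      simp only [Set.mem_iUnion] at h2
      obtain ⟨t, ht, hyt⟩ := h2
      simp only [Set.mem_iUnion]
      refine ⟨t, Finset.mem_biUnion.mpr ⟨s, hs, ht⟩, ?_⟩
      have : r / 2 ^ (k + 1) = r / 2 ^ k / 2 := by
        rw [pow_succ]; field_simp
      rw [this]
      exact hyt

/-- Packing bound. -/
theorem packing {N : ℕ} (hX : DoublingWith N X) {T : Set X} {x : X} {R ρ : ℝ} {k : ℕ}
    (hR : 0 < R) (hρ : R / 2 ^ k ≤ ρ / 2) (hT : T ⊆ Metric.ball x R)
    (hsep : ∀ p ∈ T, ∀ q ∈ T, p ≠ q → ρ ≤ dist p q) :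
    ∃ F : Finset X, F.card ≤ N ^ k ∧ ∀ p, p ∈ T → p ∈ F := by
  classical
  obtain ⟨S, hS, hcov⟩ := cover_iter hX k x R hR
  have h1 : ∀ p : X, p ∈ T → ∃ s, s ∈ S ∧ dist p s < R / 2 ^ k := by
    intro p hp
    have h2 := hcov (hT hp)
    simp only [Set.mem_iUnion] at h2
    obtain ⟨s, hs, hps⟩ := h2
    exact ⟨s, hs, hps⟩
  let g : X → X := fun p => if hp : p ∈ T then (h1 p hp).choose else p
  have hg : ∀ p ∈ T, g p ∈ S ∧ dist p (g p) < R / 2 ^ k := by
    intro p hp
    have := (h1 p hp).choose_spec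
    simp only [g, dif_pos hp]
    exact this
  have hinj : Set.InjOn g T := by
    intro p hp q hq hpq
    by_contra hne
    have h3 := hsep p hp q hq hne
    have h4 := (hg p hp).2
    have h5 := (hg q hq).2
    rw [← hpq] at h5
    have h6 := dist_triangle_right p q (g p)
    linarith
  have hmaps : Set.MapsTo g T (S : Set X) := fun p hp => (hg p hp).1
  have hfin : T.Finite := Set.Finite.of_injOn hmaps hinj S.finite_toSet
  refine ⟨hfin.toFinset, ?_, fun p hp => hfin.mem_toFinset.mpr hp⟩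
  refine le_trans (Finset.card_le_card_of_injOn g ?_ ?_) hS
  · intro p hp
    exact hmaps (hfin.mem_toFinset.mp hp)
  · intro p hp q hq
    exact hinj (hfin.mem_toFinset.mp hp) (hfin.mem_toFinset.mp hq)

/-- Existence of maximal separated nets. -/
theorem exists_net (X : Type*) [MetricSpace X] (ρ : ℝ) (hρ : 0 < ρ) :
    ∃ P : Set X, (∀ p ∈ P, ∀ q ∈ P, p ≠ q → ρ ≤ dist p q) ∧ ∀ x : X, ∃ p ∈ P, dist x p < ρ := by
  obtain ⟨P, hP⟩ := zorn_subset {P : Set X | ∀ p ∈ P, ∀ q ∈ P, p ≠ q → ρ ≤ dist p q} (by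
    intro c hc hchain
    refine ⟨⋃₀ c, ?_, fun s hs => Set.subset_sUnion_of_mem hs⟩
    intro p hp q hq hpq
    obtain ⟨s, hs, hps⟩ := hp
    obtain ⟨t, ht, hqt⟩ := hq
    rcases hchain.total hs ht with hst | hts
    · exact hc ht p (hst hps) q hqt hpq
    · exact hc hs p hps q (hts hqt) hpq)
  refine ⟨P, hP.prop, ?_⟩
  intro x
  by_contra hcon
  push Not at hcon
  have hx : x ∉ P := by
    intro hx
    have := hcon x hx
    rw [dist_self] at this
    linarith
  have hins : insert x P ∈ {P : Set X | ∀ p ∈ P, ∀ q ∈ P, p ≠ q → ρ ≤ dist p q} := by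
    intro p hp q hq hpq
    rcases hp with rfl | hp
    · rcases hq with rfl | hq
      · exact absurd rfl hpq
      · exact hcon q hq
    · rcases hq with rfl | hq
      · rw [dist_comm]; exact hcon p hp
      · exact hP.prop p hp q hq hpq
  have := hP.le_of_ge hins (Set.subset_insert x P)
  exact hx (this (Set.mem_insert x P))

end Vale.Agent.P208
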