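import Mathlib
import Vale.Agent.Lib.P208.Defs
import Vale.Agent.Lib.P208.Net
import Vale.Agent.Lib.P208.Coloring

/-! # The colouring argument: sparse Lipschitz coordinates give an embedding into `ℝ^M` -/

namespace Vale.Agent.P208

universe u v

section cutoff

variable {X : Type u} [MetricSpace X]

/-- cutoff function around `p` at scale `4^n`. -/
noncomputable def eta (n : ℤ) (p x : X) : ℝ := max 0 (min 1 (2 - 8 * dist x p / (4 : ℝ) ^ n))

theorem eta_nonneg (n : ℤ) (p x : X) : 0 ≤ eta n p x := le_max_left _ _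

theorem eta_le_one (n : ℤ) (p x : X) : eta n p x ≤ 1 :=
  max_le zero_le_one (min_le_left _ _)

theorem eta_lip (n : ℤ) (p x y : X) :
    |eta n p x - eta n p y| ≤ 8 / (4 : ℝ) ^ n * dist x y := by
  have h4 : (0 : ℝ) < (4 : ℝ) ^ n := by positivity
  unfold eta
  have h1 := abs_max_sub_max_le_abs (min 1 (2 - 8 * dist x p / (4 : ℝ) ^ n))
    (min 1 (2 - 8 * dist y p / (4 : ℝ) ^ n)) 0
  have h2 := abs_min_sub_min_le_max (1 : ℝ) (2 - 8 * dist x p / (4 : ℝ) ^ n) 1
    (2 - 8 * dist y p / (4 : ℝ) ^ n)
  rw [max_comm, max_comm (0 : ℝ) (min 1 (2 - 8 * dist y p / (4 : ℝ) ^ n))]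
  refine h1.trans (h2.trans ?_)
  have h3 : |(2 - 8 * dist x p / (4 : ℝ) ^ n) - (2 - 8 * dist y p / (4 : ℝ) ^ n)|
      ≤ 8 / (4 : ℝ) ^ n * dist x y := by
    have h5 : (2 - 8 * dist x p / (4 : ℝ) ^ n) - (2 - 8 * dist y p / (4 : ℝ) ^ n)
        = 8 / (4 : ℝ) ^ n * (dist y p - dist x p) := by ring
    rw [h5, abs_mul, abs_of_pos (by positivity : (0 : ℝ) < 8 / (4 : ℝ) ^ n)]
    refine mul_le_mul_of_nonneg_left ?_ (by positivity)
    rw [dist_comm x y]
    exact abs_dist_sub_le y x p
  refine max_le ?_ h3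
  simp only [sub_self, abs_zero]
  positivity

theorem dist_lt_of_eta_ne_zero {n : ℤ} {p x : X} (h : eta n p x ≠ 0) :
    dist x p < 1 / 4 * (4 : ℝ) ^ n := by
  have h4 : (0 : ℝ) < (4 : ℝ) ^ n := by positivity
  by_contra hcon
  push Not at hcon
  apply h
  unfold eta
  apply max_eq_left
  refine (min_le_right _ _).trans ?_
  have : 2 ≤ 8 * dist x p / (4 : ℝ) ^ n := by
    rw [le_div_iff₀ h4]; linarith
  linarith

theorem eta_eq_one {n : ℤ} {p x : X} (h : dist x p ≤ 1 / 8 * (4 : ℝ) ^ n) : eta n p x = 1 := by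
  have h4 : (0 : ℝ) < (4 : ℝ) ^ n := by positivity
  unfold eta
  have h1 : 8 * dist x p / (4 : ℝ) ^ n ≤ 1 := by
    rw [div_le_iff₀ h4]; linarith
  rw [min_eq_left (by linarith), max_eq_right zero_le_one]

end cutoff

theorem key_ineq {s t e : ℝ} (hle : |t| ≤ |s|) (h0 : 0 ≤ e) (h1 : e ≤ 1) :
    |s - t| ≤ 2 * |s - e * t| := by
  have e1 : s - t = (s - e * t) - (1 - e) * t := by ring
  have e2 : |s - t| ≤ |s - e * t| + |(1 - e) * t| := by
    rw [e1]; exact abs_sub _ _
  have e3 : |(1 - e) * t| = (1 - e) * |t| := by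
    rw [abs_mul, abs_of_nonneg (by linarith)]
  have e4 : |s| - |e * t| ≤ |s - e * t| := abs_sub_abs_le_abs_sub _ _
  have e5 : |e * t| = e * |t| := by rw [abs_mul, abs_of_nonneg h0]
  nlinarith

/-- The colouring argument. -/
theorem sparse_coordinates (N m : ℕ) (c : ℝ) (hc : 0 < c) :
    ∃ M : ℕ, ∀ (X : Type u) [MetricSpace X], DoublingWith N X →
      ∀ (ι : Type v) (u : X → ι → ℝ),
      (∀ x, ∃ S : Finset ι, S.card ≤ m ∧ ∀ i, u x i ≠ 0 → i ∈ S) →
      (∀ x y i, |u x i - u y i| ≤ dist x y) →
      (∀ x y, x ≠ y → ∃ i, c * dist x y ≤ |u x i - u y i|) →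
      ∃ F : X → Fin M → ℝ, (∀ x y j, |F x j - F y j| ≤ 86 * dist x y) ∧
        ∀ x y, x ≠ y → ∃ j, c / 4 * dist x y ≤ |F x j - F y j| := by
  classical
  -- constants
  obtain ⟨K, hK⟩ : ∃ K : ℝ, K = 32 / c + 1 := ⟨_, rfl⟩
  have hK1 : 1 ≤ K := by rw [hK]; have : 0 < 32 / c := by positivity
                         linarith
  obtain ⟨J, hJ⟩ := pow_unbounded_of_one_lt (8 * K) (by norm_num : (1 : ℝ) < 4)
  obtain ⟨k, hk⟩ := pow_unbounded_of_one_lt (16 * (K + 2)) (by norm_num : (1 : ℝ) < 2)
  refine ⟨(J * (N ^ k * m) + m * (4 * N ^ k)) + 1, ?_⟩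
  intro X _ hX ι u hsupp hlip hlow
  choose S hScard hSmem using hsupp
  have h4 : ∀ n : ℤ, (0 : ℝ) < (4 : ℝ) ^ n := fun n => by positivity
  choose P hPsep hPnet using fun n : ℤ =>
    exists_net X ((4 : ℝ) ^ n / 8) (by have := h4 n; positivity)
  let A := {a : ℤ × X × ι // a.2.1 ∈ P a.1 ∧ 1 / 2 * (4 : ℝ) ^ a.1 ≤ |u a.2.1 a.2.2| ∧
    |u a.2.1 a.2.2| ≤ 5 * (4 : ℝ) ^ a.1}
  let conf : A → A → Prop := fun a b => a ≠ b ∧
    dist a.1.2.1 b.1.2.1 ≤ 1 / 4 * (4 : ℝ) ^ (max a.1.1 b.1.1) + K * (4 : ℝ) ^ (min a.1.1 b.1.1)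
  have hsymm : ∀ a b, conf a b → conf b a := by
    intro a b h
    refine ⟨h.1.symm, ?_⟩
    rw [dist_comm, max_comm, min_comm]
    exact h.2
  have hirr : ∀ a, ¬ conf a a := fun a h => h.1 rfl
  have hbound : ∀ a : A, ∃ F : Finset A, F.card ≤ (J * (N ^ k * m) + m * (4 * N ^ k)) ∧
      ∀ b, conf a b → a.1.1 ≤ b.1.1 → b ∈ F := by
    rintro ⟨⟨n, p, i₀⟩, ha⟩
    -- net points near `p`
    have hT : ∀ n' : ℤ, ∃ T : Finset X, T.card ≤ N ^ k ∧
        ∀ q, q ∈ P n' → dist q p < (K + 2) * (4 : ℝ) ^ n' → q ∈ T := by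
      intro n'
      obtain ⟨T, hT1, hT2⟩ := packing (T := P n' ∩ Metric.ball p ((K + 2) * (4 : ℝ) ^ n'))
        (x := p) (R := (K + 2) * (4 : ℝ) ^ n') (ρ := (4 : ℝ) ^ n' / 8) (k := k) hX
        (by have := h4 n'; positivity)
        (by
          have h4' := h4 n'
          have h2k : (0 : ℝ) < 2 ^ k := by positivity
          rw [div_le_iff₀ h2k]
          nlinarith)
        Set.inter_subset_right
        (fun p' hp' q' hq' hne => hPsep n' p' hp'.1 q' hq'.1 hne)
      exact ⟨T, hT1, fun q hq hqd => hT2 q ⟨hq, hqd⟩⟩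
    choose T hTcard hTmem using hT
    have hν : ∀ i : ι, ∃ ν : ℤ, u p i ≠ 0 → (4 : ℝ) ^ ν ≤ |u p i| ∧ |u p i| < (4 : ℝ) ^ (ν + 1) := by
      intro i
      by_cases h : u p i = 0
      · exact ⟨0, fun h' => absurd h h'⟩
      · obtain ⟨ν, hν1, hν2⟩ := exists_mem_Ico_zpow (x := |u p i|) (y := (4 : ℝ))
          (abs_pos.mpr h) (by norm_num)
        exact ⟨ν, fun _ => ⟨hν1, hν2⟩⟩
    choose ν hν using hν
    let F1 : Finset (ℤ × X × ι) := (Finset.range J).biUnion fun t =>
      (T (n + t)).biUnion fun q => (S q).image fun i => (n + (t : ℤ), q, i)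
    let F2 : Finset (ℤ × X × ι) := (S p).biUnion fun i =>
      (Finset.range 4).biUnion fun t => (T (ν i - 1 + t)).image fun q => (ν i - 1 + (t : ℤ), q, i)
    have hF1 : F1.card ≤ J * (N ^ k * m) := by
      refine (Finset.card_biUnion_le_card_mul _ _ (N ^ k * m) ?_).trans ?_
      · intro t _
        refine (Finset.card_biUnion_le_card_mul _ _ m ?_).trans ?_
        · intro q _
          exact Finset.card_image_le.trans (hScard q)
        · exact Nat.mul_le_mul_right _ (hTcard _)
      · rw [Finset.card_range]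
    have hF2 : F2.card ≤ m * (4 * N ^ k) := by
      refine (Finset.card_biUnion_le_card_mul _ _ (4 * N ^ k) ?_).trans ?_
      · intro i _
        refine (Finset.card_biUnion_le_card_mul _ _ (N ^ k) ?_).trans ?_
        · intro t _
          exact Finset.card_image_le.trans (hTcard _)
        · rw [Finset.card_range]
      · exact Nat.mul_le_mul_right _ (hScard _)
    refine ⟨(F1 ∪ F2).subtype _, ?_, ?_⟩
    · rw [Finset.card_subtype]
      refine (Finset.card_filter_le _ _).trans ((Finset.card_union_le _ _).trans ?_)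
      exact Nat.add_le_add hF1 hF2
    · rintro ⟨⟨n', q, i⟩, hb⟩ ⟨_, hdist⟩ hle
      simp only at hle hb hdist ha
      rw [max_eq_right hle, min_eq_left hle] at hdist
      obtain ⟨hq, hlo, hhi⟩ := hb
      rw [Finset.mem_subtype, Finset.mem_union]
      have hle4 : (4 : ℝ) ^ n ≤ (4 : ℝ) ^ n' := zpow_le_zpow_right₀ (by norm_num) hle
      have h4n := h4 n
      have h4n' := h4 n'
      have hqp : dist q p < (K + 2) * (4 : ℝ) ^ n' := by
        rw [dist_comm]
        have : K * (4 : ℝ) ^ n ≤ K * (4 : ℝ) ^ n' := mul_le_mul_of_nonneg_left hle4 (by linarith)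
        nlinarith
      by_cases hcase : n' < n + J
      · left
        simp only [F1, Finset.mem_biUnion, Finset.mem_image, Finset.mem_range]
        obtain ⟨t, ht⟩ := Int.eq_ofNat_of_zero_le (sub_nonneg.mpr hle)
        refine ⟨t, by omega, q, ?_, i, ?_, ?_⟩
        · have : n + (t : ℤ) = n' := by omega
          rw [this]
          exact hTmem n' q hq hqp
        · apply hSmem
          intro h0
          rw [h0, abs_zero] at hlo
          linarith
        · have : n + (t : ℤ) = n' := by omega
          rw [this]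
      · right
        push Not at hcase
        -- coordinate `i` lies in the support of `p`
        have hJ' : K * (4 : ℝ) ^ n ≤ 1 / 8 * (4 : ℝ) ^ n' := by
          have h5 : (4 : ℝ) ^ n * (4 : ℝ) ^ J ≤ (4 : ℝ) ^ n' := by
            rw [← zpow_natCast (4 : ℝ) J, ← zpow_add₀ (by norm_num)]
            exact zpow_le_zpow_right₀ (by norm_num) hcase
          nlinarith
        have hd : dist p q ≤ 3 / 8 * (4 : ℝ) ^ n' := by linarith
        have hl := hlip q p i
        rw [dist_comm] at hl
        have habs1 : |u q i| - |u p i| ≤ |u q i - u p i| := abs_sub_abs_le_abs_sub _ _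
        have habs2 : |u p i| - |u q i| ≤ |u q i - u p i| := by
          rw [abs_sub_comm]; exact abs_sub_abs_le_abs_sub _ _
        have hlo' : 1 / 8 * (4 : ℝ) ^ n' ≤ |u p i| := by linarith
        have hhi' : |u p i| ≤ 43 / 8 * (4 : ℝ) ^ n' := by linarith
        have hne : u p i ≠ 0 := by
          intro h0
          rw [h0, abs_zero] at hlo'
          linarith
        obtain ⟨hν1, hν2⟩ := hν i hne
        have hup : n' < ν i + 3 := by
          by_contra hcon
          push Not at hcon
          have h5 : (4 : ℝ) ^ (ν i + 3) ≤ (4 : ℝ) ^ n' := zpow_le_zpow_right₀ (by norm_num) hcon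
          have h6 : (4 : ℝ) ^ (ν i + 3) = 16 * (4 : ℝ) ^ (ν i + 1) := by
            rw [show ν i + 3 = (ν i + 1) + 2 by ring, zpow_add₀ (by norm_num)]
            norm_num
            ring
          linarith [h4 (ν i + 1)]
        have hdown : ν i - 2 < n' := by
          by_contra hcon
          push Not at hcon
          have h5 : (4 : ℝ) ^ n' ≤ (4 : ℝ) ^ (ν i - 2) := zpow_le_zpow_right₀ (by norm_num) hcon
          have h6 : (4 : ℝ) ^ (ν i) = 16 * (4 : ℝ) ^ (ν i - 2) := by
            rw [show ν i = (ν i - 2) + 2 by ring, zpow_add₀ (by norm_num)]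
            norm_num
            ring
          linarith [h4 (ν i - 2)]
        simp only [F2, Finset.mem_biUnion, Finset.mem_image, Finset.mem_range]
        obtain ⟨t, ht⟩ := Int.eq_ofNat_of_zero_le (show 0 ≤ n' - (ν i - 1) by omega)
        have hn' : ν i - 1 + (t : ℤ) = n' := by omega
        refine ⟨i, hSmem p i hne, t, by omega, q, ?_, ?_⟩
        · rw [hn']
          exact hTmem n' q hq hqp
        · rw [hn']
  obtain ⟨χ, hχ⟩ := exists_coloring conf hsymm hirr (fun a => a.1.1) _ hbound
  -- the bumps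
  let b : A → X → ℝ := fun a x => eta a.1.1 a.1.2.1 x * u x a.1.2.2
  have hact : ∀ a x, b a x ≠ 0 → dist x a.1.2.1 < 1 / 4 * (4 : ℝ) ^ a.1.1 ∧
      |u x a.1.2.2| ≤ 21 / 4 * (4 : ℝ) ^ a.1.1 := by
    rintro ⟨⟨n, p, i⟩, hp, hlo, hhi⟩ x hbx
    simp only [b] at hbx
    simp only at hp hlo hhi ⊢
    have h1 : eta n p x ≠ 0 := left_ne_zero_of_mul hbx
    have h2 := dist_lt_of_eta_ne_zero h1
    refine ⟨h2, ?_⟩
    have h3 := hlip x p i
    have h5 : |u x i| - |u p i| ≤ |u x i - u p i| := abs_sub_abs_le_abs_sub _ _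
    linarith
  have hble : ∀ a x, |b a x| ≤ |u x a.1.2.2| := by
    intro a x
    simp only [b]
    rw [abs_mul, abs_of_nonneg (eta_nonneg _ _ _)]
    exact mul_le_of_le_one_left (abs_nonneg _) (eta_le_one _ _ _)
  have hblip1 : ∀ a x y, b a y ≠ 0 → |b a x - b a y| ≤ 43 * dist x y := by
    intro a x y hby
    obtain ⟨_, hu⟩ := hact a y hby
    obtain ⟨⟨n, p, i⟩, ha⟩ := a
    simp only [b] at hby ⊢
    simp only at hu
    have e1 : eta n p x * u x i - eta n p y * u y i
        = eta n p x * (u x i - u y i) + (eta n p x - eta n p y) * u y i := by ring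
    rw [e1]
    refine (abs_add_le _ _).trans ?_
    rw [abs_mul, abs_mul, abs_of_nonneg (eta_nonneg _ _ _)]
    have h4n := h4 n
    have e2 : eta n p x * |u x i - u y i| ≤ 1 * dist x y :=
      mul_le_mul (eta_le_one _ _ _) (hlip x y i) (abs_nonneg _) zero_le_one
    have e3 : |eta n p x - eta n p y| * |u y i|
        ≤ (8 / (4 : ℝ) ^ n * dist x y) * (21 / 4 * (4 : ℝ) ^ n) :=
      mul_le_mul (eta_lip n p x y) hu (abs_nonneg _) (by positivity)
    have e4 : (8 / (4 : ℝ) ^ n * dist x y) * (21 / 4 * (4 : ℝ) ^ n) = 42 * dist x y := by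
      field_simp
      ring
    linarith
  have hblip : ∀ a x y, |b a x - b a y| ≤ 43 * dist x y := by
    intro a x y
    by_cases hy : b a y = 0
    · by_cases hx : b a x = 0
      · rw [hx, hy, sub_zero, abs_zero]; positivity
      · rw [abs_sub_comm, dist_comm]; exact hblip1 a y x hx
    · exact hblip1 a x y hy
  have hK' : K * c = 32 + c := by rw [hK]; field_simp
  have huniq : ∀ a a' x, χ a = χ a' → b a x ≠ 0 → b a' x ≠ 0 → a = a' := by
    intro a a' x hcol hx hx'
    by_contra hne
    apply hχ a a' _ hcol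
    refine ⟨hne, ?_⟩
    have d1 := (hact a x hx).1
    have d2 := (hact a' x hx').1
    have d3 : dist a.1.2.1 a'.1.2.1 ≤ dist x a.1.2.1 + dist x a'.1.2.1 :=
      dist_triangle_left _ _ _
    rcases le_total a.1.1 a'.1.1 with hle | hle
    · rw [max_eq_right hle, min_eq_left hle]
      nlinarith [h4 a.1.1]
    · rw [max_eq_left hle, min_eq_right hle]
      nlinarith [h4 a'.1.1]
  let F : X → Fin ((J * (N ^ k * m) + m * (4 * N ^ k)) + 1) → ℝ := fun x j =>
    if h : ∃ a, χ a = j ∧ b a x ≠ 0 then b h.choose x else 0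
  have hFeq : ∀ a x, b a x ≠ 0 → F x (χ a) = b a x := by
    intro a x hax
    have h : ∃ a', χ a' = χ a ∧ b a' x ≠ 0 := ⟨a, rfl, hax⟩
    simp only [F, dif_pos h]
    have h1 := h.choose_spec
    rw [huniq h.choose a x h1.1 h1.2 hax]
  have hFzero : ∀ x j, (∀ a, χ a = j → b a x = 0) → F x j = 0 := by
    intro x j hj
    have h : ¬ ∃ a', χ a' = j ∧ b a' x ≠ 0 := by
      rintro ⟨a', h1, h2⟩
      exact h2 (hj a' h1)
    simp only [F, dif_neg h]
  refine ⟨F, ?_, ?_⟩
  · -- Lipschitz bound
    intro x y j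
    by_cases hx : ∃ a, χ a = j ∧ b a x ≠ 0
    · obtain ⟨a, rfl, hax⟩ := hx
      rw [hFeq a x hax]
      by_cases hay : b a y = 0
      · by_cases hy : ∃ a', χ a' = χ a ∧ b a' y ≠ 0
        · obtain ⟨a', hcol, hay'⟩ := hy
          rw [← hcol, hFeq a' y hay']
          have hne : b a' x = 0 := by
            by_contra hcon
            have := huniq a a' x hcol.symm hax hcon
            subst this
            exact hay' hay
          have e1 := hblip a x y
          have e2 := hblip a' x y
          rw [hay, sub_zero] at e1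
          rw [hne, zero_sub, abs_neg] at e2
          have e3 := abs_sub (b a x) (b a' y)
          linarith
        · push Not at hy
          rw [hFzero y (χ a) hy]
          have e1 := hblip a x y
          rw [hay] at e1
          have : 0 ≤ dist x y := dist_nonneg
          linarith
      · rw [hFeq a y hay]
        have e1 := hblip a x y
        have : 0 ≤ dist x y := dist_nonneg
        linarith
    · push Not at hx
      rw [hFzero x j hx]
      by_cases hy : ∃ a', χ a' = j ∧ b a' y ≠ 0
      · obtain ⟨a', rfl, hay'⟩ := hy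
        rw [hFeq a' y hay']
        have e1 := hblip a' x y
        rw [hx a' rfl] at e1
        have : 0 ≤ dist x y := dist_nonneg
        linarith
      · push Not at hy
        rw [hFzero y j hy, sub_zero, abs_zero]
        positivity
  · -- lower bound
    -- it suffices to treat the case `|u y i| ≤ |u x i|`
    have main : ∀ x y i, x ≠ y → c * dist x y ≤ |u x i - u y i| → |u y i| ≤ |u x i| →
        ∃ j, c / 4 * dist x y ≤ |F x j - F y j| := by
      intro x y i hne hi hle
      have hpos : 0 < dist x y := dist_pos.mpr hne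
      have hsub : |u x i - u y i| ≤ |u x i| + |u y i| := abs_sub _ _
      have hbig : c * dist x y ≤ 2 * |u x i| := by linarith
      have hcd : 0 < c * dist x y := by positivity
      have hxpos : 0 < |u x i| := by linarith
      obtain ⟨n, hn1, hn2⟩ := exists_mem_Ico_zpow (x := |u x i|) (y := (4 : ℝ)) hxpos (by norm_num)
      obtain ⟨p, hp, hxp⟩ := hPnet n x
      have h4n := h4 n
      have hn2' : |u x i| < 4 * (4 : ℝ) ^ n := by
        rw [zpow_add₀ (by norm_num), zpow_one] at hn2
        linarith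
      have hl := hlip x p i
      have ha1 : |u x i| - |u p i| ≤ |u x i - u p i| := abs_sub_abs_le_abs_sub _ _
      have ha2 : |u p i| - |u x i| ≤ |u x i - u p i| := by
        rw [abs_sub_comm]; exact abs_sub_abs_le_abs_sub _ _
      let a : A := ⟨(n, p, i), hp, by simp only; linarith, by simp only; linarith⟩
      have hηx : eta n p x = 1 := eta_eq_one (by linarith)
      have hbx : b a x = u x i := by
        simp only [b, a, hηx, one_mul]
      have hbx0 : b a x ≠ 0 := by
        rw [hbx]; exact abs_pos.mp hxpos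
      refine ⟨χ a, ?_⟩
      rw [hFeq a x hbx0, hbx]
      by_cases hay : b a y = 0
      · by_cases hy : ∃ a', χ a' = χ a ∧ b a' y ≠ 0
        · obtain ⟨a', hcol, hay'⟩ := hy
          rw [← hcol, hFeq a' y hay']
          have hne' : a ≠ a' := by
            rintro rfl
            exact hay' hay
          obtain ⟨d1, d2⟩ := hact a' y hay'
          have hdxy : c * dist x y < 8 * (4 : ℝ) ^ n := by linarith
          have hKd : 8 * (4 : ℝ) ^ n / c ≤ (K - 1) / 4 * (4 : ℝ) ^ n := by
            rw [hK]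
            have : (32 / c + 1 - 1) / 4 * (4 : ℝ) ^ n = 8 * (4 : ℝ) ^ n / c := by
              field_simp; ring
            rw [this]
          have hdxy' : dist x y < (K - 1) / 4 * (4 : ℝ) ^ n := by
            refine lt_of_lt_of_le ?_ hKd
            rw [lt_div_iff₀ hc]
            linarith
          -- the scale of `a'` is at most `n - 2`
          have hscale : a'.1.1 + 2 ≤ n := by
            by_contra hcon
            push Not at hcon
            apply hχ a a' _ hcol.symm
            refine ⟨hne', ?_⟩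
            have t1 : dist p a'.1.2.1 ≤ dist x p + dist x y + dist y a'.1.2.1 := by
              have t2 := dist_triangle p x a'.1.2.1
              have t3 := dist_triangle x y a'.1.2.1
              rw [dist_comm p x] at t2
              linarith
            change dist p a'.1.2.1 ≤ 1 / 4 * (4 : ℝ) ^ (max n a'.1.1)
              + K * (4 : ℝ) ^ (min n a'.1.1)
            rcases le_or_gt n a'.1.1 with hle' | hlt'
            · rw [max_eq_right hle', min_eq_left hle']
              nlinarith
            · have hn' : a'.1.1 = n - 1 := by omega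
              rw [max_eq_left hlt'.le, min_eq_right hlt'.le]
              rw [hn'] at d1 ⊢
              have e4 : (4 : ℝ) ^ n = 4 * (4 : ℝ) ^ (n - 1) := by
                rw [zpow_sub₀ (by norm_num), zpow_one]; ring
              have h4n1 := h4 (n - 1)
              rw [e4] at hdxy' hxp ⊢
              nlinarith
          have hsmall : |b a' y| ≤ 1 / 2 * |u x i| := by
            have e5 := hble a' y
            have e6 : (4 : ℝ) ^ (a'.1.1 + 2) ≤ (4 : ℝ) ^ n := zpow_le_zpow_right₀ (by norm_num) hscale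
            have e7 : (4 : ℝ) ^ (a'.1.1 + 2) = 16 * (4 : ℝ) ^ a'.1.1 := by
              rw [zpow_add₀ (by norm_num)]; norm_num; ring
            linarith [h4 a'.1.1]
          have e8 : |u x i| - |b a' y| ≤ |u x i - b a' y| := abs_sub_abs_le_abs_sub _ _
          linarith
        · push Not at hy
          rw [hFzero y (χ a) hy, sub_zero]
          linarith
      · rw [hFeq a y hay]
        -- `|u x i - η u y i| ≥ |u x i - u y i| / 2`
        have hη0 := eta_nonneg n p y
        have hη1 := eta_le_one n p y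
        have hby : b a y = eta n p y * u y i := rfl
        rw [hby]
        have hkey : |u x i - u y i| ≤ 2 * |u x i - eta n p y * u y i| :=
          key_ineq hle hη0 hη1
        linarith
    intro x y hne
    obtain ⟨i, hi⟩ := hlow x y hne
    rcases le_total |u y i| |u x i| with hle | hle
    · exact main x y i hne hi hle
    · obtain ⟨j, hj⟩ := main y x i hne.symm (by rw [dist_comm, abs_sub_comm]; exact hi) hle
      exact ⟨j, by rw [dist_comm, abs_sub_comm]; exact hj⟩

end Vale.Agent.P208
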