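import Mathlib
import Vale.Agent.Lib.P208.Core

/-! # Embedding of doubling spaces with sparse coordinates -/

namespace Vale.Agent.P208

universe u v w

theorem exists_large_coord_lp {ι : Type v} {E : ι → Type w} [∀ i, NormedAddCommGroup (E i)]
    (x : lp E 2) (m : ℕ) (S : Finset ι) (hS : S.card ≤ m) (hsupp : ∀ i, x i ≠ 0 → i ∈ S)
    (hx : x ≠ 0) : ∃ i, ‖x‖ ≤ (m + 1) * ‖x i‖ := by
  by_contra hcon
  push Not at hcon
  have hpos : 0 < ‖x‖ := norm_pos_iff.mpr hx
  have h2 : (0 : ℝ) < (2 : ENNReal).toReal := by norm_num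
  have hnorm := lp.norm_rpow_eq_tsum h2 x
  have htsum : ∑' i, ‖x i‖ ^ (2 : ENNReal).toReal = ∑ i ∈ S, ‖x i‖ ^ (2 : ENNReal).toReal := by
    apply tsum_eq_sum
    intro i hi
    have : x i = 0 := by
      by_contra h
      exact hi (hsupp i h)
    rw [this, norm_zero]
    norm_num
  rw [htsum] at hnorm
  simp only [ENNReal.toReal_ofNat, Real.rpow_ofNat] at hnorm
  have hm1 : (0 : ℝ) < (m : ℝ) + 1 := by positivity
  have hbound : ∑ i ∈ S, ‖x i‖ ^ 2 ≤ ∑ _i ∈ S, (‖x‖ / (m + 1)) ^ 2 := by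
    apply Finset.sum_le_sum
    intro i _
    apply pow_le_pow_left₀ (norm_nonneg _)
    rw [le_div_iff₀ hm1]
    linarith [hcon i]
  rw [Finset.sum_const, nsmul_eq_mul] at hbound
  have hcard : (S.card : ℝ) ≤ m := by exact_mod_cast hS
  have h3 : (S.card : ℝ) * (‖x‖ / (m + 1)) ^ 2 ≤ m * (‖x‖ / (m + 1)) ^ 2 :=
    mul_le_mul_of_nonneg_right hcard (by positivity)
  have h4 : (m : ℝ) * (‖x‖ / (m + 1)) ^ 2 < ‖x‖ ^ 2 := by
    rw [div_pow, mul_div_assoc', div_lt_iff₀ (by positivity)]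
    have hm0 : (0 : ℝ) ≤ m := by positivity
    have : (m : ℝ) < (m + 1) ^ 2 := by nlinarith
    nlinarith [sq_pos_of_pos hpos]
  linarith

theorem exists_large_coord_euclidean {q : ℕ} (x : EuclideanSpace ℝ (Fin q)) (hx : x ≠ 0) :
    ∃ l, ‖x‖ ≤ (q + 1) * |x l| := by
  by_contra hcon
  push Not at hcon
  have hpos : 0 < ‖x‖ := norm_pos_iff.mpr hx
  have hnorm : ‖x‖ ^ 2 = ∑ i, |x i| ^ 2 := by
    rw [EuclideanSpace.norm_sq_eq]
    simp only [Real.norm_eq_abs]
  have hq1 : (0 : ℝ) < (q : ℝ) + 1 := by positivity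
  have hbound : ∑ i : Fin q, |x i| ^ 2 ≤ ∑ _i : Fin q, (‖x‖ / (q + 1)) ^ 2 := by
    apply Finset.sum_le_sum
    intro i _
    apply pow_le_pow_left₀ (abs_nonneg _)
    rw [le_div_iff₀ hq1]
    linarith [hcon i]
  rw [Finset.sum_const, nsmul_eq_mul, Finset.card_univ, Fintype.card_fin] at hbound
  have h4 : (q : ℝ) * (‖x‖ / (q + 1)) ^ 2 < ‖x‖ ^ 2 := by
    rw [div_pow, mul_div_assoc', div_lt_iff₀ (by positivity)]
    have hm0 : (0 : ℝ) ≤ q := by positivity
    have : (q : ℝ) < (q + 1) ^ 2 := by nlinarith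
    nlinarith [sq_pos_of_pos hpos]
  linarith

theorem bilip_of_coordinates {X : Type u} [MetricSpace X] {M : ℕ} (F : X → Fin M → ℝ)
    (L c : ℝ) (hL : 0 ≤ L) (hc : 0 < c)
    (hup : ∀ x y j, |F x j - F y j| ≤ L * dist x y)
    (hlow : ∀ x y, x ≠ y → ∃ j, c * dist x y ≤ |F x j - F y j|) :
    BiLipschitzWith (Real.sqrt M * L / c)
      (fun x => (WithLp.toLp 2 (F x) : EuclideanSpace ℝ (Fin M))) := by
  refine ⟨c, hc, fun x y => ⟨?_, ?_⟩⟩
  · by_cases hxy : x = y
    · subst hxy; simp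
    · obtain ⟨j, hj⟩ := hlow x y hxy
      rw [EuclideanSpace.dist_eq]
      refine hj.trans ?_
      rw [← Real.sqrt_sq_eq_abs]
      apply Real.sqrt_le_sqrt
      have := Finset.single_le_sum (f := fun i => dist (F x i) (F y i) ^ 2)
        (fun i _ => by positivity) (Finset.mem_univ j)
      simp only [Real.dist_eq, sq_abs] at this ⊢
      exact this
  · rw [EuclideanSpace.dist_eq]
    have hd : 0 ≤ dist x y := dist_nonneg
    have h1 : ∑ i : Fin M, dist (F x i) (F y i) ^ 2 ≤ (M : ℝ) * (L * dist x y) ^ 2 := by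
      calc ∑ i : Fin M, dist (F x i) (F y i) ^ 2 ≤ ∑ _i : Fin M, (L * dist x y) ^ 2 := by
            apply Finset.sum_le_sum
            intro i _
            apply pow_le_pow_left₀ dist_nonneg
            rw [Real.dist_eq]
            exact hup x y i
        _ = (M : ℝ) * (L * dist x y) ^ 2 := by
            rw [Finset.sum_const, nsmul_eq_mul, Finset.card_univ, Fintype.card_fin]
    refine (Real.sqrt_le_sqrt h1).trans ?_
    rw [Real.sqrt_mul (by positivity), Real.sqrt_sq (by positivity)]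
    have : Real.sqrt M * L / c * c * dist x y = Real.sqrt M * (L * dist x y) := by
      field_simp
    rw [this]

/-- Main embedding theorem for maps with sparse differences. -/
theorem assembly (N m q : ℕ) (D₀ D₁ : ℝ) :
    ∃ (k : ℕ) (D : ℝ), ∀ (Y : Type u) [MetricSpace Y], DoublingWith N Y →
      ∀ (ι : Type v) (E : ι → Type w) [∀ i, NormedAddCommGroup (E i)] (φ : Y → lp E 2),
      BiLipschitzWith D₁ φ →
      (∀ x y, {i | φ x i ≠ φ y i}.encard ≤ m) →
      (∀ i, ∃ g : (Set.range fun y => φ y i) → EuclideanSpace ℝ (Fin q),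
        BiLipschitzWith D₀ g) →
      ∃ f : Y → EuclideanSpace ℝ (Fin k), BiLipschitzWith D f := by
  obtain ⟨B₀, hB₀1, hB₀⟩ : ∃ B₀ : ℝ, 1 ≤ B₀ ∧ D₀ ≤ B₀ := ⟨max D₀ 1, le_max_right _ _, le_max_left _ _⟩
  obtain ⟨B₁, hB₁1, hB₁⟩ : ∃ B₁ : ℝ, 1 ≤ B₁ ∧ D₁ ≤ B₁ := ⟨max D₁ 1, le_max_right _ _, le_max_left _ _⟩
  have hB₀pos : 0 < B₀ := by linarith
  have hB₁pos : 0 < B₁ := by linarith
  obtain ⟨c, hcdef⟩ : ∃ c : ℝ, c = 1 / ((m + 1) * (q + 1) * B₀ * B₁) := ⟨_, rfl⟩
  have hc : 0 < c := by rw [hcdef]; positivity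
  obtain ⟨M, hM⟩ := sparse_coordinates.{u, v} N (m * q) c hc
  refine ⟨M, Real.sqrt M * 86 / (c / 4), ?_⟩
  intro Y _ hY ι E _ φ hφ hsparse hg
  by_cases hemp : IsEmpty Y
  · exact ⟨fun y => (hemp.false y).elim, 1, one_pos, fun x => (hemp.false x).elim⟩
  rw [not_isEmpty_iff] at hemp
  obtain ⟨y₀⟩ := hemp
  obtain ⟨a, ha, hφ⟩ := hφ
  choose g b hb hg using hg
  -- embedded coordinates
  let G : Y → (i : ι) → EuclideanSpace ℝ (Fin q) := fun y i => g i ⟨φ y i, y, rfl⟩
  have hGup : ∀ x y i, ‖G x i - G y i‖ ≤ B₀ * b i * ‖φ x i - φ y i‖ := by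
    intro x y i
    have h1 := (hg i ⟨φ x i, x, rfl⟩ ⟨φ y i, y, rfl⟩).2
    rw [Subtype.dist_eq, dist_eq_norm, dist_eq_norm] at h1
    refine h1.trans ?_
    have hbi := hb i
    have : D₀ * b i ≤ B₀ * b i := mul_le_mul_of_nonneg_right hB₀ hbi.le
    exact mul_le_mul_of_nonneg_right this (norm_nonneg _)
  have hGlow : ∀ x y i, b i * ‖φ x i - φ y i‖ ≤ ‖G x i - G y i‖ := by
    intro x y i
    have h1 := (hg i ⟨φ x i, x, rfl⟩ ⟨φ y i, y, rfl⟩).1
    rw [Subtype.dist_eq, dist_eq_norm, dist_eq_norm] at h1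
    exact h1
  have hGeq : ∀ x y i, φ x i = φ y i → G x i = G y i := by
    intro x y i h
    simp only [G]
    congr 2
  have hφup : ∀ x y, ‖φ x - φ y‖ ≤ B₁ * a * dist x y := by
    intro x y
    have h1 := (hφ x y).2
    rw [dist_eq_norm (φ x)] at h1
    refine h1.trans ?_
    have : D₁ * a ≤ B₁ * a := mul_le_mul_of_nonneg_right hB₁ ha.le
    exact mul_le_mul_of_nonneg_right this dist_nonneg
  have hφlow : ∀ x y, a * dist x y ≤ ‖φ x - φ y‖ := by
    intro x y
    have h1 := (hφ x y).1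
    rwa [dist_eq_norm (φ x)] at h1
  let κ : ι → ℝ := fun i => B₀ * b i * B₁ * a
  have hκ : ∀ i, 0 < κ i := fun i => by have := hb i; simp only [κ]; positivity
  let U : Y → (ι × Fin q) → ℝ := fun y il => (G y il.1 il.2 - G y₀ il.1 il.2) / κ il.1
  have hUsub : ∀ x y il, U x il - U y il = (G x il.1 - G y il.1) il.2 / κ il.1 := by
    intro x y il
    simp only [U, PiLp.sub_apply]
    ring
  have goal1 : ∀ x, ∃ S : Finset (ι × Fin q), S.card ≤ m * q ∧ ∀ i, U x i ≠ 0 → i ∈ S := by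
    -- sparsity
    intro y
    have hfin : {i | φ y i ≠ φ y₀ i}.Finite :=
      Set.finite_of_encard_le_coe (hsparse y y₀)
    have hcard : hfin.toFinset.card ≤ m := by
      have h1 := hsparse y y₀
      rw [hfin.encard_eq_coe_toFinset_card] at h1
      exact_mod_cast h1
    refine ⟨hfin.toFinset ×ˢ Finset.univ, ?_, ?_⟩
    · rw [Finset.card_product, Finset.card_univ, Fintype.card_fin]
      exact Nat.mul_le_mul_right _ hcard
    · rintro ⟨i, l⟩ hne
      rw [Finset.mem_product]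
      refine ⟨?_, Finset.mem_univ _⟩
      rw [Set.Finite.mem_toFinset]
      intro heq
      apply hne
      simp only [U]
      rw [hGeq y y₀ i heq]
      simp
  have goal2 : ∀ x y il, |U x il - U y il| ≤ dist x y := by
    -- Lipschitz
    intro x y il
    rw [hUsub, abs_div, abs_of_pos (hκ il.1), div_le_iff₀ (hκ il.1)]
    have h1 : |(G x il.1 - G y il.1) il.2| ≤ ‖G x il.1 - G y il.1‖ := by
      rw [← Real.norm_eq_abs]
      exact PiLp.norm_apply_le _ _
    refine h1.trans ((hGup x y il.1).trans ?_)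
    have h2 : ‖φ x il.1 - φ y il.1‖ ≤ ‖φ x - φ y‖ := by
      have := lp.norm_apply_le_norm (E := E) (p := 2) (by norm_num) (φ x - φ y) il.1
      simpa using this
    have hbi := hb il.1
    calc B₀ * b il.1 * ‖φ x il.1 - φ y il.1‖ ≤ B₀ * b il.1 * (B₁ * a * dist x y) :=
          mul_le_mul_of_nonneg_left (h2.trans (hφup x y)) (by positivity)
      _ = dist x y * κ il.1 := by simp only [κ]; ring
  have goal3 : ∀ x y, x ≠ y → ∃ il, c * dist x y ≤ |U x il - U y il| := by
    -- lower bound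
    intro x y hxy
    have hdpos : 0 < dist x y := dist_pos.mpr hxy
    have hne : φ x - φ y ≠ 0 := by
      intro h0
      have := hφlow x y
      rw [h0, norm_zero] at this
      have : 0 < a * dist x y := by positivity
      linarith
    have hfin : {i | φ x i ≠ φ y i}.Finite := Set.finite_of_encard_le_coe (hsparse x y)
    have hcard : hfin.toFinset.card ≤ m := by
      have h1 := hsparse x y
      rw [hfin.encard_eq_coe_toFinset_card] at h1
      exact_mod_cast h1
    obtain ⟨i, hi⟩ := exists_large_coord_lp (φ x - φ y) m hfin.toFinset hcard (by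
      intro i hi
      rw [Set.Finite.mem_toFinset]
      intro heq
      apply hi
      simp [heq]) hne
    have hi' : ‖φ x - φ y‖ ≤ (m + 1) * ‖φ x i - φ y i‖ := by simpa using hi
    have hbi := hb i
    have hipos : 0 < ‖φ x i - φ y i‖ := by
      have h1 : 0 < ‖φ x - φ y‖ := norm_pos_iff.mpr hne
      by_contra hcon
      push Not at hcon
      have : (m + 1 : ℝ) * ‖φ x i - φ y i‖ ≤ 0 := mul_nonpos_of_nonneg_of_nonpos (by positivity) hcon
      linarith
    have hGpos : G x i - G y i ≠ 0 := by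
      intro h0
      have h1 := hGlow x y i
      rw [h0, norm_zero] at h1
      have : 0 < b i * ‖φ x i - φ y i‖ := by positivity
      linarith
    obtain ⟨l, hl⟩ := exists_large_coord_euclidean (G x i - G y i) hGpos
    refine ⟨(i, l), ?_⟩
    rw [hUsub, abs_div, abs_of_pos (hκ i), le_div_iff₀ (hκ i)]
    have hlow1 := hφlow x y
    have hlow2 := hGlow x y i
    have e1 : a * dist x y ≤ (m + 1) * ‖φ x i - φ y i‖ := hlow1.trans hi'
    have e2 : b i * ‖φ x i - φ y i‖ ≤ (q + 1) * |(G x i - G y i) l| := hlow2.trans hl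
    have e3 : b i * (a * dist x y) ≤ (m + 1) * ((q + 1) * |(G x i - G y i) l|) := by
      calc b i * (a * dist x y) ≤ b i * ((m + 1) * ‖φ x i - φ y i‖) :=
            mul_le_mul_of_nonneg_left e1 hbi.le
        _ = (m + 1) * (b i * ‖φ x i - φ y i‖) := by ring
        _ ≤ (m + 1) * ((q + 1) * |(G x i - G y i) l|) :=
            mul_le_mul_of_nonneg_left e2 (by positivity)
    have e4 : c * dist x y * κ i = b i * (a * dist x y) / ((m + 1) * (q + 1)) := by
      rw [hcdef]
      simp only [κ]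
      field_simp
    rw [e4, div_le_iff₀ (by positivity)]
    linarith
  obtain ⟨F, hF1, hF2⟩ := hM Y hY (ι × Fin q) U goal1 goal2 goal3
  exact ⟨_, bilip_of_coordinates F 86 (c / 4) (by norm_num) (by positivity) hF1 hF2⟩

end Vale.Agent.P208
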