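import Mathlib
import Vale.Agent.Lib.P208.Defs

/-! # A doubling set all of whose embeddings into `ℝ^k` bend segments -/

namespace Vale.Agent.P208

section labels

theorem doubling_of_labels {X : Type*} [MetricSpace X] {β : Type*} (n : ℕ)
    (h : ∀ (x : X) (r : ℝ), 0 < r → ∃ (L : X → β) (T : Finset β), T.card ≤ n ∧
      (∀ y ∈ Metric.ball x r, L y ∈ T) ∧
      ∀ y ∈ Metric.ball x r, ∀ z ∈ Metric.ball x r, L y = L z → dist y z < r / 2) :
    DoublingWith n X := by
  classical
  intro x r hr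
  obtain ⟨L, T, hT, hLT, hsep⟩ := h x r hr
  refine ⟨T.image (fun c => if hc : ∃ y ∈ Metric.ball x r, L y = c then hc.choose else x),
    Finset.card_image_le.trans hT, ?_⟩
  intro y hy
  simp only [Set.mem_iUnion]
  have hc : ∃ z ∈ Metric.ball x r, L z = L y := ⟨y, hy, rfl⟩
  refine ⟨hc.choose, ?_, ?_⟩
  · rw [Finset.mem_image]
    exact ⟨L y, hLT y hy, by rw [dif_pos hc]⟩
  · rw [Metric.mem_ball]
    exact hsep y hy _ hc.choose_spec.1 hc.choose_spec.2.symm

end labels

section construction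

variable {H : Type*} [NormedAddCommGroup H] [InnerProductSpace ℝ H]

/-- the point `t e_0 + τ e_{j+1}` -/
def pt (e : ℕ → H) (t τ : ℝ) (j : ℕ) : H := t • e 0 + τ • e (j + 1)

/-- The set: the line `ℝ e_0`, the parallel lines `4^{-j} e_{j+1} + ℝ e_0`, and the rungs
`100 j e_0 + [0, 4^{-j}] e_{j+1}`. -/
def bookSet (e : ℕ → H) : Set H :=
  {x | ∃ (t τ : ℝ) (j : ℕ), x = pt e t τ j ∧ 0 ≤ τ ∧ τ ≤ (1 / 4) ^ j ∧
    (τ = 0 ∨ τ = (1 / 4) ^ j ∨ t = 100 * j)}

theorem dist_pt_same {e : ℕ → H} (he : Orthonormal ℝ e) (t τ t' τ' : ℝ) (j : ℕ) :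
    dist (pt e t τ j) (pt e t' τ' j) ^ 2 = (t - t') ^ 2 + (τ - τ') ^ 2 := by
  rw [dist_eq_norm]
  have h1 : pt e t τ j - pt e t' τ' j = (t - t') • e 0 + (τ - τ') • e (j + 1) := by
    unfold pt; module
  rw [h1, ← real_inner_self_eq_norm_sq]
  have h00 : inner ℝ (e 0) (e 0) = 1 := by rw [real_inner_self_eq_norm_sq, he.1 0]; norm_num
  have h11 : inner ℝ (e (j + 1)) (e (j + 1)) = 1 := by
    rw [real_inner_self_eq_norm_sq, he.1 (j + 1)]; norm_num
  have h01 : inner ℝ (e 0) (e (j + 1)) = 0 := he.2 (by omega)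
  have h10 : inner ℝ (e (j + 1)) (e 0) = 0 := he.2 (by omega)
  simp only [inner_add_left, inner_add_right, real_inner_smul_left, real_inner_smul_right,
    h00, h11, h01, h10]
  ring

theorem dist_pt_ne {e : ℕ → H} (he : Orthonormal ℝ e) (t τ t' τ' : ℝ) {j j' : ℕ} (hj : j ≠ j') :
    dist (pt e t τ j) (pt e t' τ' j') ^ 2 = (t - t') ^ 2 + (τ ^ 2 + τ' ^ 2) := by
  rw [dist_eq_norm]
  have h1 : pt e t τ j - pt e t' τ' j' = (t - t') • e 0 + (τ • e (j + 1) - τ' • e (j' + 1)) := by
    unfold pt; module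
  rw [h1, ← real_inner_self_eq_norm_sq]
  have h00 : inner ℝ (e 0) (e 0) = 1 := by rw [real_inner_self_eq_norm_sq, he.1 0]; norm_num
  have h11 : inner ℝ (e (j + 1)) (e (j + 1)) = 1 := by
    rw [real_inner_self_eq_norm_sq, he.1 (j + 1)]; norm_num
  have h22 : inner ℝ (e (j' + 1)) (e (j' + 1)) = 1 := by
    rw [real_inner_self_eq_norm_sq, he.1 (j' + 1)]; norm_num
  have h01 : inner ℝ (e 0) (e (j + 1)) = 0 := he.2 (by omega)
  have h10 : inner ℝ (e (j + 1)) (e 0) = 0 := he.2 (by omega)
  have h02 : inner ℝ (e 0) (e (j' + 1)) = 0 := he.2 (by omega)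
  have h20 : inner ℝ (e (j' + 1)) (e 0) = 0 := he.2 (by omega)
  have h12 : inner ℝ (e (j + 1)) (e (j' + 1)) = 0 := he.2 (by omega)
  have h21 : inner ℝ (e (j' + 1)) (e (j + 1)) = 0 := he.2 (by omega)
  simp only [inner_add_left, inner_add_right, inner_sub_left, inner_sub_right,
    real_inner_smul_left, real_inner_smul_right, h00, h11, h22, h01, h10, h02, h20, h12, h21]
  ring

theorem abs_sub_le_dist_pt {e : ℕ → H} (he : Orthonormal ℝ e) (t τ t' τ' : ℝ) (j j' : ℕ) :
    |t - t'| ≤ dist (pt e t τ j) (pt e t' τ' j') := by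
  apply abs_le_of_sq_le_sq _ dist_nonneg
  by_cases hj : j = j'
  · subst hj
    rw [dist_pt_same he]; nlinarith [sq_nonneg (τ - τ')]
  · rw [dist_pt_ne he _ _ _ _ hj]; nlinarith [sq_nonneg τ, sq_nonneg τ']

theorem abs_sub_le_dist_pt' {e : ℕ → H} (he : Orthonormal ℝ e) (t τ t' τ' : ℝ) (j j' : ℕ)
    (hτ : 0 ≤ τ) (hτ' : 0 ≤ τ') :
    |τ - τ'| ≤ dist (pt e t τ j) (pt e t' τ' j') := by
  apply abs_le_of_sq_le_sq _ dist_nonneg
  by_cases hj : j = j'
  · subst hj
    rw [dist_pt_same he]; nlinarith [sq_nonneg (t - t')]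
  · rw [dist_pt_ne he _ _ _ _ hj]; nlinarith [sq_nonneg (t - t'), mul_nonneg hτ hτ']

theorem bookSet_doubling {e : ℕ → H} (he : Orthonormal ℝ e) :
    DoublingWith 320 (bookSet e) := by
  classical
  have hrep : ∀ x : bookSet e, ∃ (t τ : ℝ) (j : ℕ), (x : H) = pt e t τ j ∧ 0 ≤ τ ∧
      τ ≤ (1 / 4) ^ j ∧ (τ = 0 ∨ τ = (1 / 4) ^ j ∨ t = 100 * j) := fun x => x.2
  choose t τ j hx hτ0 hτ1 hcase using hrep
  apply doubling_of_labels (β := ℤ × ℤ × ℤ) 320
  intro x₀ r hr
  let lab : bookSet e → ℤ := fun y =>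
    if τ y < r / 8 then 0 else if τ y = (1 / 4) ^ (j y) then 1 + ((j y % 3 : ℕ) : ℤ) else 4
  let L : bookSet e → ℤ × ℤ × ℤ := fun y =>
    (⌊(t y - t x₀) / (r / 4)⌋, ⌊(τ y - τ x₀) / (r / 4)⌋, lab y)
  have hr4 : 0 < r / 4 := by linarith
  have hfloor : ∀ s : ℝ, |s| < r → -4 ≤ ⌊s / (r / 4)⌋ ∧ ⌊s / (r / 4)⌋ ≤ 3 := by
    intro s hs
    rw [abs_lt] at hs
    constructor
    · rw [Int.le_floor, le_div_iff₀ hr4]; push_cast; linarith
    · have : ⌊s / (r / 4)⌋ < 4 := by
        rw [Int.floor_lt, div_lt_iff₀ hr4]; push_cast; linarith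
      omega
  have hfl : ∀ a b s : ℝ, ⌊(a - s) / (r / 4)⌋ = ⌊(b - s) / (r / 4)⌋ → |a - b| < r / 4 := by
    intro a b s h
    have h1 := Int.abs_sub_lt_one_of_floor_eq_floor h
    rw [← sub_div, abs_div, abs_of_pos hr4, div_lt_one hr4] at h1
    have : a - s - (b - s) = a - b := by ring
    rwa [this] at h1
  refine ⟨L, Finset.Icc (-4) 3 ×ˢ Finset.Icc (-4) 3 ×ˢ Finset.Icc 0 4, ?_, ?_, ?_⟩
  · simp
  · intro y hy
    rw [Metric.mem_ball, Subtype.dist_eq, hx y, hx x₀] at hy
    have h1 := abs_sub_le_dist_pt he (t y) (τ y) (t x₀) (τ x₀) (j y) (j x₀)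
    have h2 := abs_sub_le_dist_pt' he (t y) (τ y) (t x₀) (τ x₀) (j y) (j x₀) (hτ0 y) (hτ0 x₀)
    have h3 := hfloor _ (lt_of_le_of_lt h1 hy)
    have h4 := hfloor _ (lt_of_le_of_lt h2 hy)
    have h5 : 0 ≤ lab y ∧ lab y ≤ 4 := by
      simp only [lab]
      have := Nat.mod_lt (j y) (by norm_num : 3 > 0)
      split_ifs <;> omega
    simp only [L, Finset.mem_product, Finset.mem_Icc]
    exact ⟨h3, h4, h5⟩
  · intro y hy z hz hyz
    simp only [L, Prod.mk.injEq] at hyz
    obtain ⟨h1, h2, h3⟩ := hyz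
    have ht := hfl _ _ _ h1
    have hτ := hfl _ _ _ h2
    have hyz2 : dist y z < 2 * r := by
      have := dist_triangle_right y z x₀
      rw [Metric.mem_ball] at hy hz
      linarith
    rw [Subtype.dist_eq, hx y, hx z] at hyz2 ⊢
    have ht2 : (t y - t z) ^ 2 < (r / 4) ^ 2 := by
      rw [← sq_abs]; exact pow_lt_pow_left₀ ht (abs_nonneg _) (by norm_num)
    have hτ2 : (τ y - τ z) ^ 2 < (r / 4) ^ 2 := by
      rw [← sq_abs]; exact pow_lt_pow_left₀ hτ (abs_nonneg _) (by norm_num)
    have hfin : ∀ d : ℝ, 0 ≤ d → d ^ 2 < (r / 2) ^ 2 → d < r / 2 := by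
      intro d _ hd
      exact lt_of_pow_lt_pow_left₀ 2 (by linarith) hd
    apply hfin _ dist_nonneg
    by_cases hjj : j y = j z
    · rw [hjj, dist_pt_same he]
      nlinarith
    · rw [dist_pt_ne he _ _ _ _ hjj]
      have hne : τ y < r / 8 := by
        by_contra hcon
        have hdist := dist_pt_ne he (t y) (τ y) (t z) (τ z) hjj
        have hd0 : (0 : ℝ) ≤ dist (pt e (t y) (τ y) (j y)) (pt e (t z) (τ z) (j z)) := dist_nonneg
        have hd4 : dist (pt e (t y) (τ y) (j y)) (pt e (t z) (τ z) (j z)) ^ 2 < (2 * r) ^ 2 :=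
          pow_lt_pow_left₀ hyz2 hd0 (by norm_num)
        have hylt : τ y < 2 * r := by
          apply lt_of_pow_lt_pow_left₀ 2 (by linarith)
          nlinarith [sq_nonneg (t y - t z), sq_nonneg (τ z)]
        have hzlt : τ z < 2 * r := by
          apply lt_of_pow_lt_pow_left₀ 2 (by linarith)
          nlinarith [sq_nonneg (t y - t z), sq_nonneg (τ y)]
        simp only [lab, if_neg hcon] at h3
        have hzge : ¬ τ z < r / 8 := by
          intro hz'
          simp only [if_pos hz'] at h3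
          split_ifs at h3 <;> omega
        simp only [if_neg hzge] at h3
        push Not at hcon hzge
        have hpow : ∀ a b : ℕ, a + 3 ≤ b → ((1 : ℝ) / 4) ^ b ≤ 1 / 64 * (1 / 4) ^ a := by
          intro a b hab
          have h6 : ((1 : ℝ) / 4) ^ b ≤ (1 / 4) ^ (a + 3) :=
            pow_le_pow_of_le_one (by norm_num) (by norm_num) hab
          rw [pow_add] at h6
          linarith
        by_cases hya : τ y = (1 / 4) ^ (j y)
        · simp only [if_pos hya] at h3
          have hza : τ z = (1 / 4) ^ (j z) := by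
            by_contra hza
            simp only [if_neg hza] at h3
            have := Nat.mod_lt (j y) (by norm_num : 3 > 0)
            omega
          simp only [if_pos hza] at h3
          rcases lt_or_gt_of_ne hjj with hlt | hlt
          · have h7 := hpow (j y) (j z) (by omega)
            rw [← hya, ← hza] at h7
            linarith
          · have h7 := hpow (j z) (j y) (by omega)
            rw [← hya, ← hza] at h7
            linarith
        · simp only [if_neg hya] at h3
          have hza : ¬ τ z = (1 / 4) ^ (j z) := by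
            intro hza
            simp only [if_pos hza] at h3
            have := Nat.mod_lt (j z) (by norm_num : 3 > 0)
            omega
          have hty : t y = 100 * j y := by
            rcases hcase y with h | h | h
            · exfalso; linarith
            · exact absurd h hya
            · exact h
          have htz : t z = 100 * j z := by
            rcases hcase z with h | h | h
            · exfalso; linarith
            · exact absurd h hza
            · exact h
          have hle1 : τ y ≤ 1 := (hτ1 y).trans (pow_le_one₀ (by norm_num) (by norm_num))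
          have hr8 : r ≤ 8 := by linarith
          have habs : (1 : ℝ) ≤ |(j y : ℝ) - j z| := by
            have h8 : (1 : ℤ) ≤ |(j y : ℤ) - j z| := by
              apply Int.one_le_abs
              omega
            exact_mod_cast h8
          rw [hty, htz, ← mul_sub, abs_mul, abs_of_pos (by norm_num : (0 : ℝ) < 100)] at ht
          linarith
      have hne' : τ z < r / 8 := by
        simp only [lab, if_pos hne] at h3
        by_contra hcon
        simp only [if_neg hcon] at h3
        split_ifs at h3 <;> omega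
      have h9 : τ y ^ 2 < (r / 8) ^ 2 := pow_lt_pow_left₀ hne (hτ0 y) (by norm_num)
      have h10 : τ z ^ 2 < (r / 8) ^ 2 := pow_lt_pow_left₀ hne' (hτ0 z) (by norm_num)
      nlinarith

end construction

end Vale.Agent.P208
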