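import Mathlib
import Vale.Agent.Lib.P208.Example

/-! # No embedding of the book set is affine on its segments -/

namespace Vale.Agent.P208

theorem affine_of_convexComb {F : Type*} [AddCommGroup F] [Module ℝ F] (h : ℝ → F)
    (hh : ∀ x y s : ℝ, 0 ≤ s → s ≤ 1 → h ((1 - s) * x + s * y) = (1 - s) • h x + s • h y) (t : ℝ) :
    h t = h 0 + t • (h 1 - h 0) := by
  rcases le_or_gt 0 t with h0 | h0
  · rcases le_or_gt t 1 with h1 | h1
    · have := hh 0 1 t h0 h1
      rw [show (1 - t) * 0 + t * 1 = t by ring] at this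
      rw [this]; module
    · have ht : 0 < t := by linarith
      have := hh 0 t (1 / t) (by positivity) (by rw [div_le_one ht]; exact h1.le)
      rw [show (1 - 1 / t) * 0 + 1 / t * t = 1 by field_simp; ring] at this
      have h2 : t • (h 1 - h 0) = h t - h 0 := by
        rw [this]
        have h3 : t • ((1 - 1 / t) • h 0 + (1 / t) • h t - h 0)
            = (t * (1 - 1 / t) - t) • h 0 + (t * (1 / t)) • h t := by module
        rw [h3, show t * (1 / t) = 1 by field_simp,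
          show t * (1 - 1 / t) - t = -1 by field_simp; ring]
        module
      rw [h2]; module
  · -- `0 = (1 - s) t + s 1`, `s = -t/(1-t)`
    have h1t : 0 < 1 - t := by linarith
    have := hh t 1 (-t / (1 - t)) (by apply div_nonneg <;> linarith)
      (by rw [div_le_one h1t]; linarith)
    rw [show (1 - -t / (1 - t)) * t + -t / (1 - t) * 1 = 0 by field_simp; ring] at this
    have h2 : (1 - t) • h 0 = h t - t • h 1 := by
      rw [this, smul_add, smul_smul, smul_smul,
        show (1 - t) * (1 - -t / (1 - t)) = 1 by field_simp; ring,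
        show (1 - t) * (-t / (1 - t)) = -t by field_simp]
      module
    have h3 : h t = (1 - t) • h 0 + t • h 1 := by rw [h2]; module
    rw [h3]; module

theorem const_of_bounded {F : Type*} [NormedAddCommGroup F] [NormedSpace ℝ F] (h : ℝ → F)
    (hh : ∀ x y s : ℝ, 0 ≤ s → s ≤ 1 → h ((1 - s) * x + s * y) = (1 - s) • h x + s • h y)
    (B : ℝ) (hB : ∀ t, ‖h t‖ ≤ B) (t : ℝ) : h t = h 0 := by
  have haff := affine_of_convexComb h hh
  have hz : h 1 - h 0 = 0 := by
    by_contra hne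
    have hpos : 0 < ‖h 1 - h 0‖ := norm_pos_iff.mpr hne
    have h1 := hB ((2 * B + 1) / ‖h 1 - h 0‖)
    have h2 := hB 0
    have hB0 : 0 ≤ B := (norm_nonneg _).trans h2
    rw [haff] at h1
    have h3 : ‖((2 * B + 1) / ‖h 1 - h 0‖) • (h 1 - h 0)‖ = 2 * B + 1 := by
      rw [norm_smul, Real.norm_eq_abs, abs_of_nonneg (by positivity)]
      field_simp
    have h4 : ‖((2 * B + 1) / ‖h 1 - h 0‖) • (h 1 - h 0)‖ ≤
        ‖h 0 + ((2 * B + 1) / ‖h 1 - h 0‖) • (h 1 - h 0)‖ + ‖h 0‖ := by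
      have := norm_sub_le (h 0 + ((2 * B + 1) / ‖h 1 - h 0‖) • (h 1 - h 0)) (h 0)
      simpa using this
    linarith
  rw [haff, hz, smul_zero, add_zero]

variable {H : Type*} [NormedAddCommGroup H] [InnerProductSpace ℝ H]

theorem no_affine {e : ℕ → H} (he : Orthonormal ℝ e) (k : ℕ) (D : ℝ)
    (f : bookSet e → EuclideanSpace ℝ (Fin k)) (hf : BiLipschitzWith D f) :
    ¬ AffineOnSegments (bookSet e) f := by
  intro haff
  obtain ⟨a, ha, hbl⟩ := hf
  have h4 : ∀ j : ℕ, (0 : ℝ) < (1 / 4) ^ j := fun j => by positivity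
  -- membership
  have memL : ∀ t : ℝ, pt e t 0 0 ∈ bookSet e := fun t =>
    ⟨t, 0, 0, rfl, le_refl _, (h4 0).le, Or.inl rfl⟩
  have memLj : ∀ (j : ℕ) (t : ℝ), pt e t ((1 / 4) ^ j) j ∈ bookSet e := fun j t =>
    ⟨t, (1 / 4) ^ j, j, rfl, (h4 j).le, le_refl _, Or.inr (Or.inl rfl)⟩
  have memR : ∀ (j : ℕ) (τ : ℝ), 0 ≤ τ → τ ≤ (1 / 4) ^ j → pt e (100 * j) τ j ∈ bookSet e :=
    fun j τ h0 h1 => ⟨100 * j, τ, j, rfl, h0, h1, Or.inr (Or.inr rfl)⟩
  have hpt0 : ∀ (t : ℝ) (j j' : ℕ), pt e t 0 j = pt e t 0 j' := by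
    intro t j j'; unfold pt; simp
  -- segments
  have hcomb : ∀ (t τ t' τ' s : ℝ) (j : ℕ), (1 - s) • pt e t τ j + s • pt e t' τ' j
      = pt e ((1 - s) * t + s * t') ((1 - s) * τ + s * τ') j := by
    intro t τ t' τ' s j; unfold pt; module
  have hsegL : ∀ t t' : ℝ, segment ℝ (pt e t 0 0) (pt e t' 0 0) ⊆ bookSet e := by
    intro t t' z hz
    obtain ⟨c, s, hc, hs, hcs, rfl⟩ := hz
    have : c = 1 - s := by linarith
    subst this
    rw [hcomb]
    have : (1 - s) * 0 + s * 0 = (0 : ℝ) := by ring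
    rw [this]
    exact memL _
  have hsegLj : ∀ (j : ℕ) (t t' : ℝ),
      segment ℝ (pt e t ((1 / 4) ^ j) j) (pt e t' ((1 / 4) ^ j) j) ⊆ bookSet e := by
    intro j t t' z hz
    obtain ⟨c, s, hc, hs, hcs, rfl⟩ := hz
    have : c = 1 - s := by linarith
    subst this
    rw [hcomb]
    have : (1 - s) * (1 / 4) ^ j + s * (1 / 4) ^ j = ((1 : ℝ) / 4) ^ j := by ring
    rw [this]
    exact memLj _ _
  let l : ℝ → bookSet e := fun t => ⟨pt e t 0 0, memL t⟩
  let lj : ℕ → ℝ → bookSet e := fun j t => ⟨pt e t ((1 / 4) ^ j) j, memLj j t⟩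
  have hl : ∀ x y s : ℝ, 0 ≤ s → s ≤ 1 →
      f (l ((1 - s) * x + s * y)) = (1 - s) • f (l x) + s • f (l y) := by
    intro x y s hs0 hs1
    apply haff (l x) (l y) (hsegL x y) _ s hs0 hs1
    simp only [l]
    rw [hcomb]
    ring_nf
  have hlj : ∀ (j : ℕ) (x y s : ℝ), 0 ≤ s → s ≤ 1 →
      f (lj j ((1 - s) * x + s * y)) = (1 - s) • f (lj j x) + s • f (lj j y) := by
    intro j x y s hs0 hs1
    apply haff (lj j x) (lj j y) (hsegLj j x y) _ s hs0 hs1
    simp only [lj]
    rw [hcomb]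
    ring_nf
  -- displacement vectors
  let δ : ℕ → ℝ → EuclideanSpace ℝ (Fin k) := fun j t => f (lj j t) - f (l t)
  have hdist : ∀ (j : ℕ) (t : ℝ), dist (lj j t) (l t) = (1 / 4) ^ j := by
    intro j t
    have h1 : dist (pt e t ((1 / 4) ^ j) j) (pt e t 0 j) ^ 2 = ((1 / 4) ^ j) ^ 2 := by
      rw [dist_pt_same he]; ring
    rw [Subtype.dist_eq]
    change dist (pt e t ((1 / 4) ^ j) j) (pt e t 0 0) = _
    rw [hpt0 t 0 j]
    exact (pow_left_inj₀ dist_nonneg (h4 j).le (by norm_num)).mp h1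
  have hδB : ∀ j t, ‖δ j t‖ ≤ D * a * (1 / 4) ^ j := by
    intro j t
    have := (hbl (lj j t) (l t)).2
    rw [hdist, dist_eq_norm] at this
    exact this
  have hδ : ∀ j t, δ j t = δ j 0 := by
    intro j t
    apply const_of_bounded (δ j) _ _ (hδB j)
    intro x y s hs0 hs1
    simp only [δ]
    rw [hl x y s hs0 hs1, hlj j x y s hs0 hs1]
    module
  let w : ℕ → EuclideanSpace ℝ (Fin k) := fun j => (4 : ℝ) ^ j • δ j 0
  have h44 : ∀ j : ℕ, (4 : ℝ) ^ j * (1 / 4) ^ j = 1 := by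
    intro j; rw [← mul_pow]; norm_num
  have hwB : ∀ j, ‖w j‖ ≤ D * a := by
    intro j
    simp only [w]
    rw [norm_smul, Real.norm_eq_abs, abs_of_pos (by positivity)]
    calc (4 : ℝ) ^ j * ‖δ j 0‖ ≤ (4 : ℝ) ^ j * (D * a * (1 / 4) ^ j) :=
          mul_le_mul_of_nonneg_left (hδB j 0) (by positivity)
      _ = D * a * ((4 : ℝ) ^ j * (1 / 4) ^ j) := by ring
      _ = D * a := by rw [h44, mul_one]
  have hδw : ∀ j, δ j 0 = ((1 : ℝ) / 4) ^ j • w j := by
    intro j
    simp only [w]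
    rw [smul_smul, mul_comm, h44, one_smul]
  have hwsep : ∀ i j : ℕ, i < j → a ≤ ‖w i - w j‖ := by
    intro i j hij
    have hle : ((1 : ℝ) / 4) ^ j ≤ (1 / 4) ^ i :=
      pow_le_pow_of_le_one (by norm_num) (by norm_num) hij.le
    -- the point on the rung
    let p : bookSet e := ⟨pt e (100 * i) ((1 / 4) ^ j) i, memR i _ (h4 j).le hle⟩
    -- value of `f` at `p`
    have hseg : segment ℝ ((l (100 * i) : bookSet e) : H) ((lj i (100 * i) : bookSet e) : H)
        ⊆ bookSet e := by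
      intro z hz
      obtain ⟨c, s, hc, hs, hcs, rfl⟩ := hz
      have : c = 1 - s := by linarith
      subst this
      change (1 - s) • pt e (100 * i) 0 0 + s • pt e (100 * i) ((1 / 4) ^ i) i ∈ bookSet e
      rw [hpt0 (100 * i) 0 i, hcomb]
      have e1 : (1 - s) * (100 * (i : ℝ)) + s * (100 * i) = 100 * i := by ring
      rw [e1]
      apply memR
      · have := h4 i
        positivity
      · have := h4 i
        nlinarith
    have h4i := h4 i
    have hfp : f p = f (l (100 * i)) + ((1 : ℝ) / 4) ^ j • w i := by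
      have h1 := haff (l (100 * i)) (lj i (100 * i)) hseg p ((4 : ℝ) ^ i * (1 / 4) ^ j)
        (by positivity)
        (by
          calc (4 : ℝ) ^ i * (1 / 4) ^ j ≤ (4 : ℝ) ^ i * (1 / 4) ^ i :=
                mul_le_mul_of_nonneg_left hle (by positivity)
            _ = 1 := h44 i)
        (by
          change pt e (100 * i) ((1 / 4) ^ j) i
            = (1 - (4 : ℝ) ^ i * (1 / 4) ^ j) • pt e (100 * i) 0 0
              + ((4 : ℝ) ^ i * (1 / 4) ^ j) • pt e (100 * i) ((1 / 4) ^ i) i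
          rw [hpt0 (100 * i) 0 i, hcomb]
          congr 1
          · ring
          · have := h44 i
            calc ((1 : ℝ) / 4) ^ j = ((4 : ℝ) ^ i * (1 / 4) ^ i) * (1 / 4) ^ j := by
                  rw [this, one_mul]
              _ = _ := by ring)
      rw [h1]
      have h2 : f (lj i (100 * i)) = f (l (100 * i)) + δ i 0 := by
        rw [← hδ i (100 * i)]; simp only [δ]; abel
      rw [h2]
      simp only [w]
      rw [smul_smul]
      have h3 : ((1 : ℝ) / 4) ^ j * 4 ^ i = 4 ^ i * (1 / 4) ^ j := by ring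
      rw [h3]
      module
    have hfq : f (lj j (100 * i)) = f (l (100 * i)) + ((1 : ℝ) / 4) ^ j • w j := by
      rw [← hδw, ← hδ j (100 * i)]; simp only [δ]; abel
    have hd : ((1 : ℝ) / 4) ^ j ≤ dist p (lj j (100 * i)) := by
      rw [Subtype.dist_eq]
      change ((1 : ℝ) / 4) ^ j ≤ dist (pt e (100 * i) ((1 / 4) ^ j) i)
        (pt e (100 * i) ((1 / 4) ^ j) j)
      apply le_of_sq_le_sq _ dist_nonneg
      rw [dist_pt_ne he _ _ _ _ (ne_of_lt hij)]
      nlinarith [sq_nonneg (((1 : ℝ) / 4) ^ j)]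
    have h5 := (hbl p (lj j (100 * i))).1
    rw [hfp, hfq, dist_eq_norm] at h5
    have h6 : f (l (100 * ↑i)) + ((1 : ℝ) / 4) ^ j • w i
        - (f (l (100 * ↑i)) + ((1 : ℝ) / 4) ^ j • w j) = ((1 : ℝ) / 4) ^ j • (w i - w j) := by
      module
    rw [h6, norm_smul, Real.norm_eq_abs, abs_of_pos (h4 j)] at h5
    have h7 : a * (1 / 4) ^ j ≤ (1 / 4) ^ j * ‖w i - w j‖ :=
      (mul_le_mul_of_nonneg_left hd ha.le).trans h5
    have h4j := h4 j
    rw [mul_comm a] at h7
    exact le_of_mul_le_mul_left h7 h4j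
  -- contradiction by compactness
  obtain ⟨v, -, φ, hφ, hlim⟩ := tendsto_subseq_of_bounded
    (Metric.isBounded_closedBall (x := (0 : EuclideanSpace ℝ (Fin k))) (r := D * a))
    (x := w) (fun n => by rw [mem_closedBall_zero_iff]; exact hwB n)
  have hcauchy := hlim.cauchySeq
  rw [Metric.cauchySeq_iff'] at hcauchy
  obtain ⟨n, hn⟩ := hcauchy a ha
  have h8 := hn (n + 1) (Nat.le_succ n)
  have h9 := hwsep (φ n) (φ (n + 1)) (hφ (Nat.lt_succ_self n))
  simp only [Function.comp_apply] at h8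
  rw [dist_comm, dist_eq_norm] at h8
  linarith

end Vale.Agent.P208
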