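import Vale.Agent.Lib.P208.Assembly
import Vale.Agent.Lib.P208.NoAffine

/-! # P208: orthogonal blocks and coordinate maps -/

namespace Vale.Agent.P208

/-- `Y` is doubling with constant at most `N`: the points at distance less than `r` from a point
are at distance less than `r / 2` from one of at most `N` points of `Y`. -/
def Doubles (N : ℕ) (Y : Type*) [MetricSpace Y] : Prop :=
  ∀ (y : Y) (r : ℝ), 0 < r →
    ∃ S : Finset Y, S.card ≤ N ∧ ∀ z, dist z y < r → ∃ s ∈ S, dist z s < r / 2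

/-- a map of `Y` into Euclidean `ℝ^k` which does not decrease distances and increases them at most
by the factor `D` (after rescaling: bi-Lipschitz with distortion at most `D`) -/
def Embeds (k : ℕ) (D : ℝ) (Y : Type*) [MetricSpace Y] : Prop :=
  ∃ f : Y → EuclideanSpace ℝ (Fin k), ∀ x y : Y,
    dist x y ≤ dist (f x) (f y) ∧ dist (f x) (f y) ≤ D * dist x y

theorem Doubles.doublingWith {N : ℕ} {Y : Type*} [MetricSpace Y] (h : Doubles N Y) :
    DoublingWith N Y := by
  intro x r hr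
  obtain ⟨S, hS, hc⟩ := h x r hr
  refine ⟨S, hS, fun z hz => ?_⟩
  obtain ⟨s, hs, hzs⟩ := hc z hz
  exact Set.mem_iUnion₂.2 ⟨s, hs, hzs⟩

theorem DoublingWith.doubles {N : ℕ} {Y : Type*} [MetricSpace Y] (h : DoublingWith N Y) :
    Doubles N Y := by
  intro x r hr
  obtain ⟨S, hS, hc⟩ := h x r hr
  refine ⟨S, hS, fun z hz => ?_⟩
  obtain ⟨s, hs, hzs⟩ := Set.mem_iUnion₂.1 (hc (Metric.mem_ball.2 hz))
  exact ⟨s, hs, hzs⟩

theorem EmbedsWith.embeds {k : ℕ} {D : ℝ} {Y : Type*} [MetricSpace Y] (h : EmbedsWith k D Y) :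
    Embeds k D Y := by
  obtain ⟨f, a, ha, hf⟩ := h
  refine ⟨fun y => a⁻¹ • f y, fun x y => ?_⟩
  obtain ⟨h1, h2⟩ := hf x y
  rw [dist_smul₀, Real.norm_eq_abs, abs_of_pos (inv_pos.2 ha)]
  constructor
  · rw [inv_mul_eq_div, le_div_iff₀ ha]
    linarith
  · rw [inv_mul_eq_div, div_le_iff₀ ha]
    linarith

/-- **Coordinates.** -/
theorem coordinates (N m q : ℕ) (A : ℝ) : ∃ (k : ℕ) (D : ℝ), ∀ (Y : Type) [MetricSpace Y],
    Doubles N Y → ∀ (ι : Type) (π : ι → Y → EuclideanSpace ℝ (Fin q)),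
      (∀ x y, {i | π i x ≠ π i y}.encard ≤ m) →
      (∀ i x y, dist (π i x) (π i y) ≤ A * dist x y) →
      (∀ x y, x ≠ y → ∃ i, dist x y ≤ A * dist (π i x) (π i y)) → Embeds k D Y := by
  classical
  obtain ⟨B, hB1, hAB⟩ : ∃ B : ℝ, 1 ≤ B ∧ A ≤ B := ⟨max A 1, le_max_right _ _, le_max_left _ _⟩
  have hBpos : 0 < B := by linarith
  obtain ⟨k, D, h⟩ := assembly.{0, 0, 0} N m q 1 ((m + 1) * B * B)
  refine ⟨k, D, ?_⟩
  intro Y _ hY ι π hm hup hlow
  rcases isEmpty_or_nonempty Y with hE | ⟨⟨y₀⟩⟩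
  · exact ⟨fun y => (hE.false y).elim, fun x => (hE.false x).elim⟩
  have hfin : ∀ x y : Y, {i | π i x ≠ π i y}.Finite := fun x y =>
    Set.finite_of_encard_le_coe (hm x y)
  have hmem : ∀ y : Y, Memℓp (fun i => π i y - π i y₀) 2 := by
    intro y
    apply memℓp_gen
    apply summable_of_ne_finset_zero (s := (hfin y y₀).toFinset)
    intro i hi
    have : π i y = π i y₀ := by
      by_contra hne
      exact hi ((Set.Finite.mem_toFinset _).2 hne)
    rw [this, sub_self, norm_zero]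
    simp
  let φ : Y → lp (fun _ : ι => EuclideanSpace ℝ (Fin q)) 2 := fun y => ⟨fun i => π i y - π i y₀, hmem y⟩
  have hφ : ∀ (x : Y) (i : ι), (φ x : ι → EuclideanSpace ℝ (Fin q)) i = π i x - π i y₀ :=
    fun x i => rfl
  have hφd : ∀ (x y : Y) (i : ι), (φ x - φ y : lp (fun _ : ι => EuclideanSpace ℝ (Fin q)) 2) i
      = π i x - π i y := by
    intro x y i
    rw [lp.coeFn_sub, Pi.sub_apply, hφ, hφ]
    abel
  have hbl : BiLipschitzWith ((m + 1) * B * B) φ := by
    refine ⟨B⁻¹, inv_pos.2 hBpos, fun x y => ?_⟩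
    constructor
    · rcases eq_or_ne x y with rfl | hxy
      · rw [dist_self, dist_self, mul_zero]
      · obtain ⟨i, hi⟩ := hlow x y hxy
        have h1 : dist (π i x) (π i y) ≤ dist (φ x) (φ y) := by
          rw [dist_eq_norm, dist_eq_norm, ← hφd]
          exact lp.norm_apply_le_norm (by norm_num) _ i
        rw [inv_mul_eq_div, div_le_iff₀ hBpos]
        calc dist x y ≤ A * dist (π i x) (π i y) := hi
          _ ≤ B * dist (π i x) (π i y) := mul_le_mul_of_nonneg_right hAB dist_nonneg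
          _ ≤ B * dist (φ x) (φ y) := mul_le_mul_of_nonneg_left h1 hBpos.le
          _ = dist (φ x) (φ y) * B := mul_comm _ _
    · have hrhs : (m + 1) * B * B * B⁻¹ * dist x y = (m + 1) * (B * dist x y) := by
        field_simp
      rw [hrhs, dist_eq_norm]
      -- the difference is a sum of at most `m` singles
      have hsum : φ x - φ y = ∑ i ∈ (hfin x y).toFinset,
          lp.single (E := fun _ : ι => EuclideanSpace ℝ (Fin q)) 2 i (π i x - π i y) := by
        ext1
        funext j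
        rw [hφd, lp.coeFn_sum, Finset.sum_apply]
        by_cases hj : j ∈ (hfin x y).toFinset
        · rw [Finset.sum_eq_single_of_mem j hj]
          · rw [lp.single_apply_self]
          · intro i _ hij
            rw [lp.single_apply_ne _ _ _ (Ne.symm hij)]
        · rw [Finset.sum_eq_zero]
          · have : π j x = π j y := by
              by_contra hne
              exact hj ((Set.Finite.mem_toFinset _).2 hne)
            rw [this, sub_self]
          · intro i hi
            rw [lp.single_apply_ne]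
            rintro rfl
            exact hj hi
      have hcard : ((hfin x y).toFinset.card : ℝ) ≤ m := by
        have h1 := hm x y
        rw [(hfin x y).encard_eq_coe_toFinset_card] at h1
        exact_mod_cast h1
      calc ‖φ x - φ y‖ ≤ ∑ i ∈ (hfin x y).toFinset, B * dist x y := by
            rw [hsum]
            refine (norm_sum_le _ _).trans (Finset.sum_le_sum fun i _ => ?_)
            rw [lp.norm_single (by norm_num), ← dist_eq_norm]
            exact (hup i x y).trans (mul_le_mul_of_nonneg_right hAB dist_nonneg)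
        _ = ((hfin x y).toFinset.card : ℝ) * (B * dist x y) := by
            rw [Finset.sum_const, nsmul_eq_mul]
        _ ≤ (m + 1) * (B * dist x y) := by
            apply mul_le_mul_of_nonneg_right _ (mul_nonneg hBpos.le dist_nonneg)
            linarith
  have hcomp : ∀ i, EmbedsWith q 1 (Set.range fun y => (φ y : ι → EuclideanSpace ℝ (Fin q)) i) := by
    intro i
    refine ⟨fun s => s.1, 1, one_pos, fun x y => ?_⟩
    rw [Subtype.dist_eq]
    simp
  refine EmbedsWith.embeds (h Y hY.doublingWith ι (fun _ => EuclideanSpace ℝ (Fin q)) φ hbl ?_ hcomp)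
  intro x y
  refine (Set.encard_le_encard ?_).trans (hm x y)
  intro i hi
  simp only [Set.mem_ofPred_eq, hφ] at hi ⊢
  intro hxy
  exact hi (by rw [hxy])

/-- a finite dimensional inner product space of dimension at most `q` embeds isometrically in
`ℝ^q` -/
theorem exists_isometry {q : ℕ} {V : Type*} [NormedAddCommGroup V] [InnerProductSpace ℝ V]
    [FiniteDimensional ℝ V] (h : Module.finrank ℝ V ≤ q) :
    ∃ u : V → EuclideanSpace ℝ (Fin q), ∀ v w, dist (u v) (u w) = dist v w := by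
  let b := stdOrthonormalBasis ℝ V
  let g : EuclideanSpace ℝ (Fin (Module.finrank ℝ V)) → EuclideanSpace ℝ (Fin q) := fun x =>
    WithLp.toLp 2 fun j : Fin q => if hj : (j : ℕ) < Module.finrank ℝ V then x ⟨j, hj⟩ else 0
  have hg : ∀ x y, dist (g x) (g y) = dist x y := by
    intro x y
    rw [EuclideanSpace.dist_eq, EuclideanSpace.dist_eq]
    congr 1
    have h1 : ∀ j : Fin q, dist ((g x).ofLp j) ((g y).ofLp j) ^ 2 =
        (fun n : ℕ => if hj : n < Module.finrank ℝ V then
          dist (x.ofLp ⟨n, hj⟩) (y.ofLp ⟨n, hj⟩) ^ 2 else 0) j := by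
      intro j
      by_cases hj : (j : ℕ) < Module.finrank ℝ V
      · simp [g, hj]
      · simp [g, hj]
    have h2 : ∀ j : Fin (Module.finrank ℝ V), dist (x.ofLp j) (y.ofLp j) ^ 2 =
        (fun n : ℕ => if hj : n < Module.finrank ℝ V then
          dist (x.ofLp ⟨n, hj⟩) (y.ofLp ⟨n, hj⟩) ^ 2 else 0) j := by
      intro j
      simp [j.2]
    rw [Finset.sum_congr rfl fun j _ => h1 j, Finset.sum_congr rfl fun j _ => h2 j]
    rw [Fin.sum_univ_eq_sum_range (fun n : ℕ => if hj : n < Module.finrank ℝ V then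
          dist (x.ofLp ⟨n, hj⟩) (y.ofLp ⟨n, hj⟩) ^ 2 else 0) q,
      Fin.sum_univ_eq_sum_range (fun n : ℕ => if hj : n < Module.finrank ℝ V then
          dist (x.ofLp ⟨n, hj⟩) (y.ofLp ⟨n, hj⟩) ^ 2 else 0)]
    symm
    apply Finset.sum_subset (Finset.range_mono h)
    intro n _ hn
    rw [Finset.mem_range] at hn
    simp [hn]
  refine ⟨fun v => g (b.repr v), fun v w => ?_⟩
  rw [hg, b.repr.dist_map]

/-- **Blocks.** -/
theorem blocks (N m q : ℕ) : ∃ (k : ℕ) (D : ℝ), ∀ (H : Type) [NormedAddCommGroup H]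
    [InnerProductSpace ℝ H] (ι : Type) (V : ι → Submodule ℝ H),
    (∀ i, FiniteDimensional ℝ (V i)) → (∀ i, Module.finrank ℝ (V i) ≤ q) →
    (∀ i j, i ≠ j → V i ⟂ V j) → ∀ X : Set H, Doubles N X →
    (∀ x ∈ X, ∀ y ∈ X, ∃ s : Finset ι, s.card ≤ m ∧ x - y ∈ ⨆ i ∈ s, V i) → Embeds k D X := by
  classical
  obtain ⟨k, D, h⟩ := coordinates N m q (m + 1)
  refine ⟨k, D, ?_⟩
  intro H _ _ ι V hfd hq hV X hX hs
  have hu : ∀ i, ∃ u : V i → EuclideanSpace ℝ (Fin q), ∀ v w, dist (u v) (u w) = dist v w :=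
    fun i => exists_isometry (hq i)
  choose u hu using hu
  have hdist : ∀ (i : ι) (x y : H), dist (u i ((V i).orthogonalProjectionOnto x))
      (u i ((V i).orthogonalProjectionOnto y)) = ‖(V i).orthogonalProjectionOnto (x - y)‖ := by
    intro i x y
    rw [hu, dist_eq_norm, map_sub]
  have hzero : ∀ (s : Finset ι) (v : H), v ∈ (⨆ i ∈ s, V i) → ∀ j, j ∉ s →
      (V j).orthogonalProjectionOnto v = 0 := by
    intro s v hv j hj
    rw [Submodule.orthogonalProjectionOnto_eq_zero_iff]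
    have hle : (⨆ i ∈ s, V i) ≤ (V j)ᗮ := by
      apply iSup₂_le
      intro i hi
      apply hV i j
      rintro rfl
      exact hj hi
    exact hle hv
  refine h X hX ι (fun i x => u i ((V i).orthogonalProjectionOnto (x : H))) ?_ ?_ ?_
  · intro x y
    obtain ⟨s, hsm, hmem⟩ := hs x x.2 y y.2
    have hsub : {i | u i ((V i).orthogonalProjectionOnto (x : H)) ≠
        u i ((V i).orthogonalProjectionOnto (y : H))} ⊆ (s : Set ι) := by
      intro j hj
      by_contra hjs
      apply hj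
      rw [← dist_eq_zero, hdist, hzero s _ hmem j (by simpa using hjs), norm_zero]
    refine (Set.encard_le_encard hsub).trans ?_
    rw [Set.encard_coe_eq_coe_finsetCard]
    exact_mod_cast hsm
  · intro i x y
    rw [hdist, Subtype.dist_eq, dist_eq_norm]
    calc ‖(V i).orthogonalProjectionOnto ((x : H) - y)‖ ≤ ‖(x : H) - y‖ :=
          Submodule.norm_orthogonalProjectionOnto_apply_le _ _
      _ ≤ (m + 1) * ‖(x : H) - y‖ := by
          nlinarith [norm_nonneg ((x : H) - y), (Nat.cast_nonneg m : (0 : ℝ) ≤ m)]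
  · intro x y hxy
    obtain ⟨s, hsm, hmem⟩ := hs x x.2 y y.2
    obtain ⟨v, hv⟩ := (Submodule.mem_iSup_finset_iff_exists_sum V _).1 hmem
    have hproj : ∀ j ∈ s, (V j).orthogonalProjectionOnto ((x : H) - y) = v j := by
      intro j hj
      rw [← hv, map_sum, Finset.sum_eq_single_of_mem j hj]
      · exact Submodule.orthogonalProjectionOnto_mem_subspace_eq_self _
      · intro i _ hij
        rw [Submodule.orthogonalProjectionOnto_eq_zero_iff]
        exact (hV i j hij) (v i).2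
    by_contra hcon
    push Not at hcon
    have hpos : 0 < ‖(x : H) - y‖ := by
      rw [norm_pos_iff, sub_ne_zero]
      exact fun e => hxy (Subtype.ext e)
    have hlt : ∀ j ∈ s, ‖(v j : H)‖ ≤ ‖(x : H) - y‖ / (m + 1) := by
      intro j hj
      have h1 := hcon j
      rw [hdist, hproj j hj, Subtype.dist_eq, dist_eq_norm] at h1
      rw [le_div_iff₀ (by positivity)]
      have h2 : ‖(v j : H)‖ = ‖v j‖ := rfl
      rw [h2]
      linarith
    have h1 : ‖(x : H) - y‖ ≤ (s.card : ℝ) * (‖(x : H) - y‖ / (m + 1)) := by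
      calc ‖(x : H) - y‖ = ‖∑ i ∈ s, (v i : H)‖ := by rw [hv]
        _ ≤ ∑ i ∈ s, ‖(v i : H)‖ := norm_sum_le _ _
        _ ≤ ∑ i ∈ s, ‖(x : H) - y‖ / (m + 1) := Finset.sum_le_sum hlt
        _ = (s.card : ℝ) * (‖(x : H) - y‖ / (m + 1)) := by
            rw [Finset.sum_const, nsmul_eq_mul]
    have h2 : (s.card : ℝ) ≤ m := by exact_mod_cast hsm
    have h3 : (0 : ℝ) < m + 1 := by positivity
    have h4 : (s.card : ℝ) * (‖(x : H) - y‖ / (m + 1)) < ‖(x : H) - y‖ := by
      rw [mul_div_assoc', div_lt_iff₀ h3]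
      nlinarith
    linarith

theorem orthonormal_singles :
    Orthonormal ℝ (fun i : ℕ => (lp.single 2 i (1 : ℝ) : lp (fun _ : ℕ => ℝ) 2)) := by
  classical
  constructor
  · intro i
    have h := lp.norm_single (E := fun _ : ℕ => ℝ) (p := 2) (by norm_num) i (1 : ℝ)
    rw [h, norm_one]
  · intro i j hij
    rw [lp.inner_single_left]
    simp [lp.single_apply, hij]

/-- the book in `ℓ²` -/
noncomputable def book : Set (lp (fun _ : ℕ => ℝ) 2) :=
  bookSet (fun i : ℕ => (lp.single 2 i (1 : ℝ) : lp (fun _ : ℕ => ℝ) 2))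

theorem book_sparse : ∀ x ∈ book, ∀ y ∈ book,
    {i | (x : ℕ → ℝ) i ≠ (y : ℕ → ℝ) i}.encard ≤ 3 := by
  classical
  rintro x ⟨t, τ, j, rfl, -⟩ y ⟨t', τ', j', rfl, -⟩
  have hsub : {i : ℕ | (pt (fun i : ℕ => (lp.single 2 i (1 : ℝ) : lp (fun _ : ℕ => ℝ) 2))
      t τ j) i ≠ (pt (fun i : ℕ => (lp.single 2 i (1 : ℝ) : lp (fun _ : ℕ => ℝ) 2))
      t' τ' j') i} ⊆ (({0, j + 1, j' + 1} : Finset ℕ) : Set ℕ) := by
    intro i hi
    by_contra hcon
    simp only [Finset.coe_insert, Finset.coe_singleton, Set.mem_insert_iff,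
      Set.mem_singleton_iff, not_or] at hcon
    obtain ⟨h0, h1, h2⟩ := hcon
    apply hi
    have key : ∀ (t τ : ℝ) (j : ℕ), ¬ i = j + 1 →
        (pt (fun i : ℕ => (lp.single 2 i (1 : ℝ) : lp (fun _ : ℕ => ℝ) 2)) t τ j) i = 0 := by
      intro t τ j hj
      have e0 : (lp.single 2 0 (1 : ℝ) : lp (fun _ : ℕ => ℝ) 2) i = 0 :=
        lp.single_apply_ne (E := fun _ : ℕ => ℝ) 2 0 (1 : ℝ) h0
      have e1 : (lp.single 2 (j + 1) (1 : ℝ) : lp (fun _ : ℕ => ℝ) 2) i = 0 :=
        lp.single_apply_ne (E := fun _ : ℕ => ℝ) 2 (j + 1) (1 : ℝ) hj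
      change t * ((lp.single 2 0 (1 : ℝ) : lp (fun _ : ℕ => ℝ) 2) i)
        + τ * ((lp.single 2 (j + 1) (1 : ℝ) : lp (fun _ : ℕ => ℝ) 2) i) = 0
      rw [e0, e1, mul_zero, mul_zero, add_zero]
    rw [key t τ j h1, key t' τ' j' h2]
  refine (Set.encard_le_encard hsub).trans ?_
  rw [Set.encard_coe_eq_coe_finsetCard]
  exact_mod_cast Finset.card_le_three

theorem book_doubles : Doubles 320 book := (bookSet_doubling orthonormal_singles).doubles

theorem book_embeds : ∃ k D, Embeds k D book := by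
  obtain ⟨k, D, h⟩ := assembly.{0, 0, 0} 320 3 1 1 1
  refine ⟨k, D, EmbedsWith.embeds (h book (bookSet_doubling orthonormal_singles) ℕ (fun _ => ℝ)
    (fun x => x.1) ?_ ?_ ?_)⟩
  · exact ⟨1, one_pos, fun x y => by rw [Subtype.dist_eq]; simp⟩
  · intro x y
    exact book_sparse x x.2 y y.2
  · intro i
    refine ⟨fun s => WithLp.toLp 2 (fun _ => (s : ℝ)), 1, one_pos, fun x y => ?_⟩
    rw [EuclideanSpace.dist_eq, Subtype.dist_eq]
    simp only [Finset.univ_unique, Fin.default_eq_zero, Fin.isValue, Finset.sum_const,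
      Finset.card_singleton, one_smul, one_mul]
    rw [Real.sqrt_sq dist_nonneg]
    exact ⟨le_refl _, le_refl _⟩

theorem book_bends (k : ℕ) (a b : ℝ) (ha : 0 < a) (f : book → EuclideanSpace ℝ (Fin k))
    (hf : ∀ x y, a * dist x y ≤ dist (f x) (f y) ∧ dist (f x) (f y) ≤ b * dist x y) :
    ∃ (x y z : book) (t : ℝ), 0 ≤ t ∧ t ≤ 1 ∧ segment ℝ x.1 y.1 ⊆ book ∧
      z.1 = (1 - t) • x.1 + t • y.1 ∧ f z ≠ (1 - t) • f x + t • f y := by
  have h := no_affine orthonormal_singles k (b / a) f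
    ⟨a, ha, fun x y => ⟨(hf x y).1, by rw [div_mul_cancel₀ _ ha.ne']; exact (hf x y).2⟩⟩
  unfold AffineOnSegments at h
  push Not at h
  obtain ⟨x, y, hseg, z, t, ht0, ht1, hz, hne⟩ := h
  exact ⟨x, y, z, t, ht0, ht1, hseg, hz, hne⟩

end Vale.Agent.P208
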